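import Vale.Agent.Lib.P090.Defs

/-!
From a finite-rank operator on the free space of a bounded uniformly discrete space to a finite
model: finitely supported weights which represent the operator on test functions.
-/

open scoped NNReal

namespace Vale.Agent.Lib.P090

variable {M : Type*} [MetricSpace M] {o : M}

lemma evalAt_apply (x : M) (f : Lip0 M o) : evalAt (o := o) x f = f x := rfl

/-- the free space as a type of its own, for the proofs -/
def FreeSpace (M : Type*) [MetricSpace M] (o : M) : Type _ := freeSpace M o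

noncomputable instance : NormedAddCommGroup (FreeSpace M o) :=
  Submodule.normedAddCommGroup (freeSpace M o)

noncomputable instance : NormedSpace ℝ (FreeSpace M o) :=
  Submodule.normedSpace (freeSpace M o)

lemma hasBAP_freeSpace {lam : ℝ} (h : HasBAP (freeSpace M o) lam) :
    HasBAP (FreeSpace M o) lam := h

/-- the functional underlying an element of the free space -/
noncomputable def toDual (u : FreeSpace M o) : StrongDual ℝ (Lip0 M o) := u.1

lemma toDual_norm (u : FreeSpace M o) : ‖toDual u‖ = ‖u‖ := rfl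

lemma toDual_sub (u v : FreeSpace M o) : toDual (u - v) = toDual u - toDual v := rfl

lemma toDual_mem (u : FreeSpace M o) : toDual u ∈ closure
    ((Submodule.span ℝ (Set.range (evalAt (o := o))) : Submodule ℝ _) :
      Set (StrongDual ℝ (Lip0 M o))) := by
  rw [← Submodule.topologicalClosure_coe]
  exact u.2

/-- `δ_x` as an element of the free space -/
noncomputable def delta (x : M) : FreeSpace M o :=
  ⟨evalAt x, subset_closure (Submodule.subset_span ⟨x, rfl⟩)⟩

lemma toDual_delta (x : M) : toDual (delta x : FreeSpace M o) = evalAt x := rfl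

lemma delta_apply (x : M) (f : Lip0 M o) : toDual (delta x : FreeSpace M o) f = f x := rfl

/-- build an element of `Lip_0` from a Lipschitz bound -/
noncomputable def mkLip0 (f : M → ℝ) (h0 : f o = 0) (K : ℝ) (hK : 0 ≤ K)
    (h : ∀ x y, |f x - f y| ≤ K * dist x y) : Lip0 M o :=
  ⟨f, h0, ⟨K, hK⟩, LipschitzWith.of_dist_le_mul (fun x y => by
    rw [Real.dist_eq]
    exact h x y)⟩

lemma mkLip0_apply (f : M → ℝ) (h0 : f o = 0) (K : ℝ) (hK : 0 ≤ K)
    (h : ∀ x y, |f x - f y| ≤ K * dist x y) (x : M) : mkLip0 f h0 K hK h x = f x := rfl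

lemma mkLip0_norm (f : M → ℝ) (h0 : f o = 0) (K : ℝ) (hK : 0 ≤ K)
    (h : ∀ x y, |f x - f y| ≤ K * dist x y) : ‖mkLip0 f h0 K hK h‖ ≤ K :=
  Lip0.norm_le _ hK h

lemma norm_delta_sub (x y : M) : ‖(delta x : FreeSpace M o) - delta y‖ ≤ dist x y := by
  rw [← toDual_norm, toDual_sub, toDual_delta, toDual_delta]
  apply ContinuousLinearMap.opNorm_le_bound _ dist_nonneg
  intro f
  have := Lip0.abs_sub_le f x y
  simpa [evalAt_apply, mul_comm] using this

lemma norm_delta_le (x : M) : ‖(delta x : FreeSpace M o)‖ ≤ dist x o := by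
  rw [← toDual_norm, toDual_delta]
  apply ContinuousLinearMap.opNorm_le_bound _ dist_nonneg
  intro f
  have := Lip0.abs_sub_le f x o
  rw [f.2.1, sub_zero] at this
  rw [evalAt_apply, Real.norm_eq_abs, mul_comm]
  exact this

/-- uniform tail smallness for the images of the `δ_x` under a finite-rank operator -/
lemma finrank_tail (T : FreeSpace M o →L[ℝ] FreeSpace M o)
    (hT : FiniteDimensional ℝ (LinearMap.range T.toLinearMap)) (R : ℝ)
    (hR : ∀ x : M, ‖(delta x : FreeSpace M o)‖ ≤ R) (η : ℝ) (hη : 0 < η) :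
    ∃ F0 : Finset M, ∀ x : M, ∀ f : Lip0 M o, (∀ y ∈ F0, f y = 0) →
      |toDual (T (delta x)) f| ≤ η * ‖f‖ := by
  classical
  set V := LinearMap.range T.toLinearMap with hV
  have : ProperSpace V := FiniteDimensional.proper ℝ V
  have hK0 : IsCompact (Metric.closedBall (0 : V) (‖T‖ * R)) := isCompact_closedBall _ _
  have hK : IsCompact ((Subtype.val : V → FreeSpace M o) '' Metric.closedBall (0 : V) (‖T‖ * R)) :=
    hK0.image continuous_subtype_val
  have hmem : ∀ x : M, T (delta x) ∈
      (Subtype.val : V → FreeSpace M o) '' Metric.closedBall (0 : V) (‖T‖ * R) := by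
    intro x
    refine ⟨⟨T (delta x), ⟨delta x, rfl⟩⟩, ?_, rfl⟩
    rw [mem_closedBall_zero_iff]
    change ‖T (delta x)‖ ≤ ‖T‖ * R
    exact (T.le_opNorm _).trans (mul_le_mul_of_nonneg_left (hR x) (norm_nonneg _))
  obtain ⟨t, -, htfin, hcover⟩ := hK.finite_cover_balls (half_pos hη)
  have hc : ∀ k : FreeSpace M o, ∃ c : M →₀ ℝ,
      ‖toDual k - c.sum (fun y a => a • evalAt (o := o) y)‖ < η / 2 := by
    intro k
    have hk := toDual_mem k
    obtain ⟨w, hw, hd⟩ := Metric.mem_closure_iff.mp hk (η / 2) (half_pos hη)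
    obtain ⟨c, hc⟩ := (Finsupp.mem_span_range_iff_exists_finsupp).mp hw
    refine ⟨c, ?_⟩
    rw [hc, ← dist_eq_norm]
    exact hd
  choose c hcs using hc
  refine ⟨htfin.toFinset.biUnion (fun k => (c k).support), ?_⟩
  intro x f hf
  obtain ⟨k, hkt, hk⟩ := Set.mem_iUnion₂.mp (hcover (hmem x))
  have hzero : (c k).sum (fun y a => a • evalAt (o := o) y) f = 0 := by
    rw [Finsupp.sum, _root_.sum_apply]
    refine Finset.sum_eq_zero (fun y hy => ?_)
    have hy' : y ∈ htfin.toFinset.biUnion (fun k => (c k).support) :=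
      Finset.mem_biUnion.mpr ⟨k, htfin.mem_toFinset.mpr hkt, hy⟩
    rw [_root_.smul_apply, evalAt_apply, hf y hy', smul_zero]
  have h1 : toDual (T (delta x)) f
      = (toDual (T (delta x)) - (c k).sum (fun y a => a • evalAt (o := o) y)) f := by
    rw [_root_.sub_apply, hzero, sub_zero]
  rw [h1, ← Real.norm_eq_abs]
  refine (ContinuousLinearMap.le_opNorm _ _).trans ?_
  apply mul_le_mul_of_nonneg_right _ (norm_nonneg _)
  have h2 : ‖toDual (T (delta x)) - toDual k‖ < η / 2 := by
    have := Metric.mem_ball.mp hk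
    rw [dist_eq_norm] at this
    exact this
  have h3 := hcs k
  have h4 : toDual (T (delta x)) - (c k).sum (fun y a => a • evalAt (o := o) y)
      = (toDual (T (delta x)) - toDual k) + (toDual k - (c k).sum (fun y a => a • evalAt (o := o) y)) := by
    abel
  rw [h4]
  refine (norm_add_le _ _).trans ?_
  linarith

section Bounded

variable (hsep : ∀ x y : M, x ≠ y → 1 ≤ dist x y) (hdiam : ∀ x y : M, dist x y ≤ 2)

include hsep in
/-- the bump function at `y` (zero when `y = o`) -/
noncomputable def bump [DecidableEq M] (y : M) : Lip0 M o :=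
  mkLip0 (fun x => if x = y ∧ y ≠ o then 1 else 0)
    (by rw [if_neg]; rintro ⟨rfl, h⟩; exact h rfl) 1 zero_le_one (fun p q => by
    rcases eq_or_ne p q with rfl | hpq
    · simp
    · have h := hsep p q hpq
      rw [one_mul]
      refine le_trans ?_ h
      split_ifs <;> simp)

/-- normalisation of a `1`-Lipschitz function -/
noncomputable def lipOfOne (g : M → ℝ) (hg : ∀ p q, |g p - g q| ≤ dist p q) : Lip0 M o :=
  mkLip0 (fun x => g x - g o) (by simp) 1 zero_le_one (fun p q => by
    have : g p - g o - (g q - g o) = g p - g q := by ring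
    simp only [this, one_mul]
    exact hg p q)

lemma lipOfOne_norm (g : M → ℝ) (hg : ∀ p q, |g p - g q| ≤ dist p q) :
    ‖(lipOfOne g hg : Lip0 M o)‖ ≤ 1 := mkLip0_norm _ _ _ _ _

include hsep hdiam in
/-- the finite model -/
theorem finite_model (T : FreeSpace M o →L[ℝ] FreeSpace M o)
    (hT : FiniteDimensional ℝ (LinearMap.range T.toLinearMap)) (η : ℝ) (hη : 0 < η) :
    ∃ F0 : Finset M, ∀ Ω : Finset M, F0 ⊆ Ω → o ∈ Ω → ∃ a : M → M → ℝ,
      (∀ x, ∑ y ∈ Ω, a x y = 1) ∧
      (∀ (x : M) (g : M → ℝ) (hg : ∀ p q, |g p - g q| ≤ dist p q),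
        |∑ y ∈ Ω, a x y * g y - (toDual (T (delta x)) (lipOfOne g hg) + g o)| ≤ 2 * η) := by
  classical
  obtain ⟨F0, hF0⟩ := finrank_tail T hT 2 (fun x => (norm_delta_le x).trans (hdiam x o)) η hη
  refine ⟨F0, fun Ω hΩ ho => ?_⟩
  set a : M → M → ℝ := fun x y =>
    if y = o then 1 - ∑ y' ∈ Ω.erase o, toDual (T (delta x)) (bump hsep y')
    else toDual (T (delta x)) (bump hsep y) with ha
  have hsplit : ∀ (x : M) (f : M → ℝ), ∑ y ∈ Ω, a x y * f y
      = a x o * f o + ∑ y ∈ Ω.erase o, toDual (T (delta x)) (bump hsep y) * f y := by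
    intro x f
    rw [← Finset.add_sum_erase Ω _ ho]
    congr 1
    refine Finset.sum_congr rfl (fun y hy => ?_)
    have : y ≠ o := (Finset.mem_erase.mp hy).1
    simp [ha, this]
  have hao : ∀ x, a x o = 1 - ∑ y' ∈ Ω.erase o, toDual (T (delta x)) (bump hsep y') := by
    intro x
    simp [ha]
  refine ⟨a, fun x => ?_, fun x g hg => ?_⟩
  · have := hsplit x (fun _ => 1)
    simp only [mul_one] at this
    rw [this, hao]
    ring
  · set u : StrongDual ℝ (Lip0 M o) := toDual (T (delta x)) with hu
    -- the remainder test function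
    have hrem : ∀ p q, |(if p ∈ Ω then 0 else g p - g o) - (if q ∈ Ω then 0 else g q - g o)|
        ≤ 2 * dist p q := by
      intro p q
      rcases eq_or_ne p q with rfl | hpq
      · simp
      have hd := hsep p q hpq
      have h1 := hg p o
      have h2 := hg q o
      have h3 := hdiam p o
      have h4 := hdiam q o
      have h5 := hg p q
      by_cases hp : p ∈ Ω <;> by_cases hq : q ∈ Ω
      · simp [hp, hq]
      · simp only [hp, hq, if_true, if_false, zero_sub, abs_neg]
        linarith
      · simp only [hp, hq, if_true, if_false, sub_zero]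
        linarith
      · simp only [hp, hq, if_false]
        have : g p - g o - (g q - g o) = g p - g q := by ring
        rw [this]
        linarith
    set g1 : Lip0 M o := mkLip0 (fun p => if p ∈ Ω then 0 else g p - g o) (by simp [ho]) 2
      (by norm_num) hrem with hg1
    have hg1norm : ‖g1‖ ≤ 2 := mkLip0_norm _ _ _ _ _
    have hg1zero : ∀ y ∈ F0, g1 y = 0 := by
      intro y hy
      change (if y ∈ Ω then (0 : ℝ) else g y - g o) = 0
      rw [if_pos (hΩ hy)]
    have hdecomp : (lipOfOne g hg : Lip0 M o)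
        = ∑ y ∈ Ω.erase o, (g y - g o) • (bump hsep y : Lip0 M o) + g1 := by
      apply Lip0.ext'
      intro p
      have h1 : (∑ y ∈ Ω.erase o, (g y - g o) • (bump hsep y : Lip0 M o) + g1) p
          = ∑ y ∈ Ω.erase o, (g y - g o) * (bump hsep y : Lip0 M o) p + g1 p := by
        rw [Lip0.add_apply]
        congr 1
        have := map_sum (evalAt (o := o) p) (fun y => (g y - g o) • (bump hsep y : Lip0 M o))
          (Ω.erase o)
        simp only [evalAt_apply, Lip0.smul_apply] at this
        exact this
      rw [h1]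
      have hb : ∀ y, (bump hsep y : Lip0 M o) p = if p = y ∧ y ≠ o then 1 else 0 := fun y => rfl
      have hg1p : g1 p = if p ∈ Ω then 0 else g p - g o := rfl
      have hlp : (lipOfOne g hg : Lip0 M o) p = g p - g o := rfl
      simp only [hb, hg1p, hlp]
      by_cases hp : p ∈ Ω.erase o
      · have hpo : p ≠ o := (Finset.mem_erase.mp hp).1
        have hpΩ : p ∈ Ω := (Finset.mem_erase.mp hp).2
        rw [Finset.sum_eq_single p]
        · simp [hpo, hpΩ]
        · intro b _ hb'
          have : ¬ (p = b ∧ b ≠ o) := fun h => hb' h.1.symm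
          simp [this]
        · intro h
          exact absurd hp h
      · rw [Finset.sum_eq_zero]
        · by_cases hpΩ : p ∈ Ω
          · have hpo : p = o := by
              by_contra hne
              exact hp (Finset.mem_erase.mpr ⟨hne, hpΩ⟩)
            simp [hpΩ, hpo]
          · simp [hpΩ]
        · intro y hy
          have : ¬ (p = y ∧ y ≠ o) := by
            rintro ⟨rfl, -⟩
            exact hp hy
          simp [this]
    have hu0 : u (lipOfOne g hg)
        = ∑ y ∈ Ω.erase o, (g y - g o) * u (bump hsep y) + u g1 := by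
      rw [hdecomp, map_add, map_sum]
      congr 1
      refine Finset.sum_congr rfl (fun y _ => ?_)
      rw [map_smul, smul_eq_mul]
    have hsum : ∑ y ∈ Ω, a x y * g y
        = g o + ∑ y ∈ Ω.erase o, (g y - g o) * u (bump hsep y) := by
      have h1 : ∑ y ∈ Ω.erase o, (g y - g o) * u (bump hsep y)
          = ∑ y ∈ Ω.erase o, u (bump hsep y) * g y
            - (∑ y ∈ Ω.erase o, u (bump hsep y)) * g o := by
        rw [Finset.sum_mul, ← Finset.sum_sub_distrib]
        exact Finset.sum_congr rfl (fun y _ => by ring)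
      rw [hsplit, hao, h1]
      ring
    have hg1b : |u g1| ≤ η * ‖g1‖ := hF0 x g1 hg1zero
    have hg1c : η * ‖g1‖ ≤ 2 * η := by nlinarith
    rw [hsum, hu0]
    have : g o + ∑ y ∈ Ω.erase o, (g y - g o) * u (bump hsep y)
        - (∑ y ∈ Ω.erase o, (g y - g o) * u (bump hsep y) + u g1 + g o) = - u g1 := by ring
    rw [this, abs_neg]
    linarith

end Bounded

end Vale.Agent.Lib.P090
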