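import Vale.Agent.Lib.P090.CoreB
import Vale.Agent.Lib.P090.Reduction

/-!
From a bounded approximation on the free space of the gadget to a finite model, and the
resulting failure of the bounded approximation property with a constant close to one.
-/

open Finset

namespace Vale.Agent.Lib.P090

open Vtx

/-- the space `Vtx` fails the `(1 + 5e-8)`-bounded approximation property -/
theorem vtx_not_bap : ¬ HasBAP (FreeSpace Vtx base) (1 + 1 / 20000000) := by
  classical
  intro hB
  obtain ⟨lam, hlam⟩ : ∃ lam : ℝ, lam = 1 + 1 / 20000000 := ⟨_, rfl⟩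
  rw [← hlam] at hB
  obtain ⟨ε, hε⟩ : ∃ ε : ℝ, ε = 1 / 1000000000 := ⟨_, rfl⟩
  have hεpos : 0 < ε := by norm_num [hε]
  have hC : IsCompact (Set.range (fun p : Layer × Fin 4 =>
      (delta (hub p.1 p.2) : FreeSpace Vtx base))) := (Set.finite_range _).isCompact
  obtain ⟨T, hTfin, hTnorm, hTapp⟩ := hB _ hC ε hεpos
  obtain ⟨F0, hF0⟩ := finite_model (M := Vtx) (o := base)
    (fun x y h => dist_ge_one h) dist_le_two T hTfin ε hεpos
  obtain ⟨J, hJ⟩ := exists_J F0
  obtain ⟨a, ha1, ha2⟩ := hF0 (Om J) hJ (base_mem_Om J)
  -- the operator on differences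
  have hdiff : ∀ (u v : Vtx) (G : Lip0 Vtx base), ‖G‖ ≤ 1 →
      toDual (T (delta u)) G - toDual (T (delta v)) G ≤ lam * dist u v := by
    intro u v G hG
    have h1 : toDual (T (delta u)) G - toDual (T (delta v)) G
        = toDual (T (delta u - delta v)) G := by
      rw [map_sub, toDual_sub]
      rfl
    rw [h1]
    have h2 : |toDual (T (delta u - delta v)) G| ≤ ‖toDual (T (delta u - delta v))‖ * ‖G‖ := by
      have := ContinuousLinearMap.le_opNorm (toDual (T (delta u - delta v))) G
      rwa [Real.norm_eq_abs] at this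
    have h3 : ‖toDual (T (delta u - delta v))‖ ≤ lam * dist u v := by
      rw [toDual_norm]
      refine (T.le_opNorm _).trans ?_
      have h4 := norm_delta_sub (o := base) u v
      have h5 := norm_nonneg (delta u - delta v : FreeSpace Vtx base)
      exact mul_le_mul hTnorm h4 h5 (by norm_num [hlam])
    have h6 : ‖toDual (T (delta u - delta v))‖ * ‖G‖
        ≤ ‖toDual (T (delta u - delta v))‖ * 1 :=
      mul_le_mul_of_nonneg_left hG (norm_nonneg _)
    have h7 := le_abs_self (toDual (T (delta u - delta v)) G)
    linarith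
  -- the operator at the hubs
  have hhub : ∀ (l : Layer) (k : Fin 4) (G : Lip0 Vtx base), ‖G‖ ≤ 1 →
      toDual (T (delta (hub l k))) G ≤ G (hub l k) + ε := by
    intro l k G hG
    have h1 := hTapp _ ⟨(l, k), rfl⟩
    have h2 : toDual (T (delta (hub l k))) G - G (hub l k)
        = toDual (T (delta (hub l k)) - delta (hub l k)) G := by
      rw [toDual_sub]
      rfl
    have h3 : |toDual (T (delta (hub l k)) - delta (hub l k)) G|
        ≤ ‖toDual (T (delta (hub l k)) - delta (hub l k))‖ * ‖G‖ := by
      have := ContinuousLinearMap.le_opNorm (toDual (T (delta (hub l k)) - delta (hub l k))) G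
      rwa [Real.norm_eq_abs] at this
    rw [toDual_norm] at h3
    have h4 : ‖T (delta (hub l k)) - delta (hub l k)‖ * ‖G‖
        ≤ ‖T (delta (hub l k)) - delta (hub l k)‖ * 1 :=
      mul_le_mul_of_nonneg_left hG (norm_nonneg _)
    have h5 := le_abs_self (toDual (T (delta (hub l k)) - delta (hub l k)) G)
    rw [mul_one] at h4
    have h6 : ‖T (delta (hub l k)) - delta (hub l k)‖ < ε := h1
    linarith
  -- the model
  have hM : Model J a (1 / 20000000 + 4 * ε) := by
    refine ⟨ha1, ?_, ?_⟩
    · intro u v g hg hadj
      have hG := lipOfOne_norm (o := base) g hg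
      have h1 := abs_le.mp (ha2 u g hg)
      have h2 := abs_le.mp (ha2 v g hg)
      have h3 := hdiff u v (lipOfOne g hg) hG
      have huv : u ≠ v := by
        rintro rfl
        rcases hadj with h | h <;> (cases u with
          | base => simp [Rel] at h
          | hub _ _ => simp [Rel] at h
          | pt l w =>
            cases l <;> simp [Rel] at h)
      rw [dist_eq_one huv hadj, mul_one] at h3
      unfold pair
      linarith [h1.1, h1.2, h2.1, h2.2, hlam]
    · intro l w k g hg
      have hG := lipOfOne_norm (o := base) g hg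
      have h1 := abs_le.mp (ha2 (pt l w) g hg)
      have h3 := hdiff (pt l w) (hub l k) (lipOfOne g hg) hG
      have hne : pt l w ≠ hub l k := by simp
      rw [dist_eq_one hne (adj_hub_pt l k w).symm, mul_one] at h3
      have h4 := hhub l k (lipOfOne g hg) hG
      have h5 : (lipOfOne g hg : Lip0 Vtx base) (hub l k) = g (hub l k) - g base := rfl
      rw [h5] at h4
      unfold pair
      linarith [h1.1, h1.2, hlam]
  refine no_model hM ?_
  norm_num [hε]

/-- the `1`-bounded approximation property implies the weaker ones -/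
lemma HasBAP.mono {X : Type*} [NormedAddCommGroup X] [NormedSpace ℝ X] {l l' : ℝ} (h : l ≤ l')
    (hB : HasBAP X l) : HasBAP X l' := by
  intro C hC ε hε
  obtain ⟨T, h1, h2, h3⟩ := hB C hC ε hε
  exact ⟨T, h1, h2.trans h, h3⟩

end Vale.Agent.Lib.P090
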