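import Vale.Agent.Lib.P090.Gadget

/-!
Hub forcing and the matching lemma for a finite model of a near-contractive operator.
-/

open Finset
open scoped Classical

namespace Vale.Agent.Lib.P090

open Vtx

/-- the pairing of a weight with a function -/
noncomputable def pair (J : Finset ℕ) (b g : Vtx → ℝ) : ℝ := ∑ y ∈ Om J, b y * g y

/-- a finite model -/
structure Model (J : Finset ℕ) (a : Vtx → Vtx → ℝ) (η : ℝ) : Prop where
  total : ∀ x, ∑ y ∈ Om J, a x y = 1
  edge : ∀ u v g, IsOneLip g → Adj u v → pair J (a u) g - pair J (a v) g ≤ 1 + η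
  near : ∀ l w k g, IsOneLip g → pair J (a (pt l w)) g ≤ g (hub l k) + 1 + η

/-- mass outside a layer -/
noncomputable def Out (J : Finset ℕ) (b : Vtx → ℝ) (l : Layer) : ℝ :=
  ∑ y ∈ (Om J).filter (fun y => ¬ lay y = some l), |b y|

lemma Out_nonneg (J : Finset ℕ) (b : Vtx → ℝ) (l : Layer) : 0 ≤ Out J b l :=
  Finset.sum_nonneg (fun _ _ => abs_nonneg _)

/-- sum of the distances to the four hubs of a layer -/
lemma D_layer (l : Layer) (w : Lvl) : ∑ k : Fin 4, dist (pt l w) (hub l k) = 4 := by
  have h : ∀ k : Fin 4, dist (pt l w) (hub l k) = 1 := fun k =>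
    dist_eq_one (by simp) (adj_hub_pt l k w).symm
  simp only [h]
  norm_num

lemma D_hub (l : Layer) (i : Fin 4) : ∑ k : Fin 4, dist (hub l i) (hub l k) = 6 := by
  have h : ∀ k : Fin 4, dist (hub l i) (hub l k) = if i = k then 0 else 2 := by
    intro k
    split_ifs with hik
    · subst hik
      exact dist_self _
    · exact dist_eq_two (by simpa using hik) (not_adj_hub_hub _ _ _ _)
  simp only [h]
  fin_cases i <;> simp [Fin.sum_univ_four] <;> norm_num

lemma D_other_hub {l l' : Layer} (hl : l' ≠ l) (i : Fin 4) :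
    ∑ k : Fin 4, dist (hub l' i) (hub l k) = 8 := by
  have h : ∀ k : Fin 4, dist (hub l' i) (hub l k) = 2 := fun k =>
    dist_eq_two (by simp [hl]) (not_adj_hub_hub _ _ _ _)
  simp only [h]
  norm_num

lemma D_base (l : Layer) : ∑ k : Fin 4, dist base (hub l k) = 8 := by
  have h : ∀ k : Fin 4, dist base (hub l k) = 2 := fun k =>
    dist_eq_two (by simp) (fun hh => not_adj_base _ hh.symm)
  simp only [h]
  norm_num

lemma D_other_pt {l l' : Layer} (hl : l' ≠ l) (w : Lvl) :
    ∑ k : Fin 4, dist (pt l' w) (hub l k) = 8 := by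
  have h : ∀ k : Fin 4, dist (pt l' w) (hub l k) = 2 := fun k =>
    dist_eq_two (by simp) (not_adj_hub_pt hl.symm k w)
  simp only [h]
  norm_num

lemma D_range (l : Layer) (y : Vtx) (hy : ¬ lay y = some l) :
    6 ≤ ∑ k : Fin 4, dist y (hub l k) ∧ ∑ k : Fin 4, dist y (hub l k) ≤ 8 := by
  cases y with
  | base => rw [D_base]; norm_num
  | hub l' i =>
    by_cases hl : l' = l
    · subst hl
      rw [D_hub]
      norm_num
    · rw [D_other_hub hl]
      norm_num
  | pt l' w =>
    have hl : l' ≠ l := fun e => hy (by rw [e, lay_pt])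
    rw [D_other_pt hl]
    norm_num

lemma D_eq (l : Layer) (y : Vtx) (hy : lay y = some l) : ∑ k : Fin 4, dist y (hub l k) = 4 := by
  cases y with
  | base => simp [lay_base] at hy
  | hub l' i => simp [lay_hub] at hy
  | pt l' w =>
    rw [lay_pt, Option.some.injEq] at hy
    subst hy
    exact D_layer _ w

/-- positive part -/
noncomputable def pp (t : ℝ) : ℝ := max t 0
/-- negative part -/
noncomputable def nn (t : ℝ) : ℝ := max (-t) 0

lemma pp_nonneg (t : ℝ) : 0 ≤ pp t := le_max_right _ _
lemma nn_nonneg (t : ℝ) : 0 ≤ nn t := le_max_right _ _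
lemma pp_sub_nn (t : ℝ) : pp t - nn t = t := by
  unfold pp nn
  rcases le_total 0 t with h | h
  · rw [max_eq_left h, max_eq_right (by linarith)]; ring
  · rw [max_eq_right h, max_eq_left (by linarith)]; ring
lemma pp_add_nn (t : ℝ) : pp t + nn t = |t| := by
  unfold pp nn
  rcases le_total 0 t with h | h
  · rw [max_eq_left h, max_eq_right (by linarith), abs_of_nonneg h]; ring
  · rw [max_eq_right h, max_eq_left (by linarith), abs_of_nonpos h]; ring

/-- hub forcing: the weights of a vertex concentrate on its layer -/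
lemma hub_forcing {J : Finset ℕ} {η : ℝ} (l : Layer) (b : Vtx → ℝ)
    (h1 : ∑ y ∈ Om J, b y = 1)
    (hh : ∀ k g, IsOneLip g → pair J b g ≤ g (hub l k) + 1 + η) :
    Out J b l ≤ 11 * η := by
  set Ω := Om J with hΩ
  set notL := Ω.filter (fun y => ¬ lay y = some l) with hnotL
  set OutP := ∑ y ∈ notL, pp (b y) with hOutP
  set OutN := ∑ y ∈ notL, nn (b y) with hOutN
  set Neg := ∑ y ∈ Ω, nn (b y) with hNeg
  set Pos := ∑ y ∈ Ω, pp (b y) with hPos
  have hPN : Pos - Neg = 1 := by
    rw [hPos, hNeg, ← Finset.sum_sub_distrib, ← h1]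
    exact Finset.sum_congr rfl (fun y _ => pp_sub_nn _)
  -- first family of tests
  have step1 : 2 * OutP - 4 * OutN ≤ 4 * η := by
    have h2 : ∀ k : Fin 4, ∑ y ∈ Ω, b y * dist y (hub l k) ≤ 1 + η := by
      intro k
      have := hh k _ (isOneLip_dist (hub l k))
      simpa [pair] using this
    have h3 : ∑ k : Fin 4, ∑ y ∈ Ω, b y * dist y (hub l k) ≤ 4 + 4 * η := by
      have := Finset.sum_le_sum (fun k (_ : k ∈ (univ : Finset (Fin 4))) => h2 k)
      simpa [Finset.sum_const, mul_add] using this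
    have h4 : ∑ k : Fin 4, ∑ y ∈ Ω, b y * dist y (hub l k)
        = 4 + ∑ y ∈ Ω, b y * (∑ k : Fin 4, dist y (hub l k) - 4) := by
      rw [Finset.sum_comm]
      have : ∀ y, ∑ k : Fin 4, b y * dist y (hub l k)
          = 4 * b y + b y * (∑ k : Fin 4, dist y (hub l k) - 4) := by
        intro y
        rw [← Finset.mul_sum]
        ring
      simp only [this]
      rw [Finset.sum_add_distrib, ← Finset.mul_sum, h1]
      ring
    have h5 : 2 * OutP - 4 * OutN ≤ ∑ y ∈ Ω, b y * (∑ k : Fin 4, dist y (hub l k) - 4) := by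
      rw [← Finset.sum_filter_add_sum_filter_not Ω (fun y => lay y = some l)]
      have h6 : ∑ y ∈ Ω.filter (fun y => lay y = some l),
          b y * (∑ k : Fin 4, dist y (hub l k) - 4) = 0 := by
        refine Finset.sum_eq_zero (fun y hy => ?_)
        rw [D_eq l y (Finset.mem_filter.mp hy).2]
        ring
      rw [h6, zero_add, hOutP, hOutN, Finset.mul_sum, Finset.mul_sum, ← Finset.sum_sub_distrib]
      refine Finset.sum_le_sum (fun y hy => ?_)
      obtain ⟨h7, h8⟩ := D_range l y (Finset.mem_filter.mp hy).2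
      set D := ∑ k : Fin 4, dist y (hub l k)
      unfold pp nn
      rcases le_total 0 (b y) with h | h
      · rw [max_eq_left h, max_eq_right (by linarith)]
        have : 0 ≤ b y * (D - 6) := mul_nonneg h (by linarith)
        nlinarith
      · rw [max_eq_right h, max_eq_left (by linarith)]
        have : 0 ≤ (- b y) * (8 - D) := mul_nonneg (by linarith) (by linarith)
        nlinarith
    linarith
  -- second family of tests
  have step2 : ∀ k : Fin 4, Neg ≤ η + pp (b (hub l k)) := by
    intro k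
    have h2 := hh k (fun y => if 0 < b y ∧ y ≠ hub l k then 1 else 0) (isOneLip_indicator _)
    simp only [ne_eq, not_true_eq_false, and_false, if_false, zero_add] at h2
    have h3 : Pos = pair J b (fun y => if 0 < b y ∧ y ≠ hub l k then 1 else 0)
        + pp (b (hub l k)) := by
      have h4 : ∀ y, pp (b y) = b y * (if 0 < b y ∧ y ≠ hub l k then 1 else 0)
          + (if y = hub l k then pp (b y) else 0) := by
        intro y
        unfold pp
        by_cases hy : y = hub l k
        · subst hy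
          simp
        · simp only [hy, ne_eq, not_false_eq_true, and_true, if_false, add_zero]
          rcases lt_or_ge 0 (b y) with h | h
          · rw [max_eq_left h.le, if_pos h, mul_one]
          · rw [max_eq_right h, if_neg (not_lt.mpr h), mul_zero]
      rw [hPos, Finset.sum_congr rfl (fun y _ => h4 y), Finset.sum_add_distrib,
        Finset.sum_ite_eq', if_pos (hub_mem_Om J l k)]
      rfl
    linarith
  have step3 : ∑ k : Fin 4, pp (b (hub l k)) ≤ OutP := by
    have hinj : Function.Injective (fun k : Fin 4 => hub l k) := by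
      intro i i' h
      simpa using h
    have : ∑ k : Fin 4, pp (b (hub l k)) = ∑ y ∈ univ.image (fun k : Fin 4 => hub l k), pp (b y) :=
      (Finset.sum_image (f := fun y => pp (b y)) (fun _ _ _ _ h => hinj h)).symm
    rw [this]
    refine Finset.sum_le_sum_of_subset_of_nonneg ?_ (fun _ _ _ => pp_nonneg _)
    intro y hy
    obtain ⟨k, -, rfl⟩ := Finset.mem_image.mp hy
    refine Finset.mem_filter.mpr ⟨hub_mem_Om J l k, ?_⟩
    simp [lay_hub]
  have step4 : 4 * Neg ≤ 4 * η + OutP := by
    have := Finset.sum_le_sum (fun k (_ : k ∈ (univ : Finset (Fin 4))) => step2 k)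
    simp only [Finset.sum_const, Finset.card_univ, Fintype.card_fin, nsmul_eq_mul,
      Finset.sum_add_distrib] at this
    push_cast at this
    linarith
  have step5 : OutN ≤ Neg :=
    Finset.sum_le_sum_of_subset_of_nonneg (Finset.filter_subset _ _) (fun _ _ _ => nn_nonneg _)
  have hOut : Out J b l = OutP + OutN := by
    rw [hOutP, hOutN, ← Finset.sum_add_distrib]
    exact Finset.sum_congr rfl (fun y _ => (pp_add_nn _).symm)
  rw [hOut]
  linarith

/-- splitting a pairing along a predicate, from below -/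
lemma split_lower {V : Type*} (Ω : Finset V) (p : V → Prop) [DecidablePred p] (b g F : V → ℝ)
    (h1 : ∑ y ∈ Ω, b y = 1) (hp : ∀ y, p y → g y = 1 + F y / 2)
    (hn : ∀ y, ¬ p y → |g y - 1| ≤ 3 / 2) :
    1 + (∑ y ∈ Ω.filter p, b y * F y) / 2 - 3 / 2 * ∑ y ∈ Ω.filter (fun y => ¬ p y), |b y|
      ≤ ∑ y ∈ Ω, b y * g y := by
  have e1 : ∑ y ∈ Ω, b y * g y = 1 + ∑ y ∈ Ω, b y * (g y - 1) := by
    have e0 : ∑ y ∈ Ω, b y * (g y - 1) = ∑ y ∈ Ω, b y * g y - ∑ y ∈ Ω, b y := by
      rw [← Finset.sum_sub_distrib]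
      exact Finset.sum_congr rfl (fun y _ => by ring)
    rw [e0, h1]
    ring
  rw [e1, ← Finset.sum_filter_add_sum_filter_not Ω p (fun y => b y * (g y - 1))]
  have e2 : ∑ y ∈ Ω.filter p, b y * (g y - 1) = (∑ y ∈ Ω.filter p, b y * F y) / 2 := by
    rw [Finset.sum_div]
    refine Finset.sum_congr rfl (fun y hy => ?_)
    rw [hp y (Finset.mem_filter.mp hy).2]
    ring
  have e3 : - (3 / 2 * ∑ y ∈ Ω.filter (fun y => ¬ p y), |b y|)
      ≤ ∑ y ∈ Ω.filter (fun y => ¬ p y), b y * (g y - 1) := by
    rw [Finset.mul_sum, ← Finset.sum_neg_distrib]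
    refine Finset.sum_le_sum (fun y hy => ?_)
    have h2 := hn y (Finset.mem_filter.mp hy).2
    have h3 : |b y * (g y - 1)| ≤ |b y| * (3 / 2) := by
      rw [abs_mul]
      exact mul_le_mul_of_nonneg_left h2 (abs_nonneg _)
    have h4 := (abs_le.mp h3).1
    linarith
  rw [e2]
  linarith

/-- splitting a pairing along a predicate, from above -/
lemma split_upper {V : Type*} (Ω : Finset V) (p : V → Prop) [DecidablePred p] (b g F : V → ℝ)
    (hp : ∀ y, p y → g y = F y / 2) (hn : ∀ y, ¬ p y → |g y| ≤ 3 / 2) :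
    ∑ y ∈ Ω, b y * g y
      ≤ (∑ y ∈ Ω.filter p, b y * F y) / 2 + 3 / 2 * ∑ y ∈ Ω.filter (fun y => ¬ p y), |b y| := by
  rw [← Finset.sum_filter_add_sum_filter_not Ω p (fun y => b y * g y)]
  have e2 : ∑ y ∈ Ω.filter p, b y * g y = (∑ y ∈ Ω.filter p, b y * F y) / 2 := by
    rw [Finset.sum_div]
    refine Finset.sum_congr rfl (fun y hy => ?_)
    rw [hp y (Finset.mem_filter.mp hy).2]
    ring
  have e3 : ∑ y ∈ Ω.filter (fun y => ¬ p y), b y * g y
      ≤ 3 / 2 * ∑ y ∈ Ω.filter (fun y => ¬ p y), |b y| := by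
    rw [Finset.mul_sum]
    refine Finset.sum_le_sum (fun y hy => ?_)
    have h2 := hn y (Finset.mem_filter.mp hy).2
    have h3 : |b y * g y| ≤ |b y| * (3 / 2) := by
      rw [abs_mul]
      exact mul_le_mul_of_nonneg_left h2 (abs_nonneg _)
    have h4 := (abs_le.mp h3).2
    linarith
  rw [e2]
  linarith

/-- the values of a level function on the vertices -/
noncomputable def fval (f : Lvl → ℝ) : Vtx → ℝ
  | .pt _ w => f w
  | _ => 0

/-- the test function of the matching lemma -/
noncomputable def testG (l l' : Layer) (f f' : Lvl → ℝ) : Vtx → ℝ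
  | .pt l'' w => if l'' = l then 1 + f w / 2 else if l'' = l' then f' w / 2 else 1 / 2
  | _ => 1 / 2

lemma testG_cases (l l' : Layer) (f f' : Lvl → ℝ) (y : Vtx) :
    (∃ w, y = pt l w) ∨ (∃ w, y = pt l' w) ∨ testG l l' f f' y = 1 / 2 := by
  cases y with
  | base => exact Or.inr (Or.inr rfl)
  | hub _ _ => exact Or.inr (Or.inr rfl)
  | pt l'' w =>
    by_cases h : l'' = l
    · exact Or.inl ⟨w, by rw [h]⟩
    by_cases h' : l'' = l'
    · exact Or.inr (Or.inl ⟨w, by rw [h']⟩)
    · refine Or.inr (Or.inr ?_)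
      simp [testG, h, h']

lemma testG_left (l l' : Layer) (f f' : Lvl → ℝ) (w : Lvl) :
    testG l l' f f' (pt l w) = 1 + f w / 2 := by
  simp [testG]

lemma testG_right {l l' : Layer} (hne : l ≠ l') (f f' : Lvl → ℝ) (w : Lvl) :
    testG l l' f f' (pt l' w) = f' w / 2 := by
  simp [testG, hne.symm]

lemma testG_oneLip {l l' : Layer} (hne : l ≠ l') {f f' : Lvl → ℝ} (hf : ∀ w, |f w| ≤ 1)
    (hf' : ∀ w, |f' w| ≤ 1) (hm : ∀ u u', Adj (pt l u) (pt l' u') → f u = f' u') :
    IsOneLip (testG l l' f f') := by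
  have hfb : ∀ w, -1 ≤ f w ∧ f w ≤ 1 := fun w => abs_le.mp (hf w)
  have hfb' : ∀ w, -1 ≤ f' w ∧ f' w ≤ 1 := fun w => abs_le.mp (hf' w)
  have hrange : ∀ y, -(1 / 2) ≤ testG l l' f f' y ∧ testG l l' f f' y ≤ 3 / 2 := by
    intro y
    rcases testG_cases l l' f f' y with ⟨w, rfl⟩ | ⟨w, rfl⟩ | h
    · rw [testG_left]
      have := hfb w
      constructor <;> linarith [this.1, this.2]
    · rw [testG_right hne]
      have := hfb' w
      constructor <;> linarith [this.1, this.2]
    · rw [h]
      norm_num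
  apply isOneLip_of
  · intro u v
    have h1 := hrange u
    have h2 := hrange v
    rw [abs_le]
    constructor <;> linarith [h1.1, h1.2, h2.1, h2.2]
  · intro u v hadj
    rcases testG_cases l l' f f' u with ⟨w, rfl⟩ | ⟨w, rfl⟩ | hu <;>
      rcases testG_cases l l' f f' v with ⟨w', rfl⟩ | ⟨w', rfl⟩ | hv
    · simp only [testG_left]
      have := hfb w
      have := hfb w'
      rw [abs_le]
      constructor <;> linarith [(hfb w).1, (hfb w).2, (hfb w').1, (hfb w').2]
    · simp only [testG_left, testG_right hne]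
      rw [hm w w' hadj, abs_le]
      constructor <;> linarith
    · simp only [testG_left, hv]
      rw [abs_le]
      constructor <;> linarith [(hfb w).1, (hfb w).2]
    · simp only [testG_left, testG_right hne]
      rw [← hm w' w hadj.symm, abs_le]
      constructor <;> linarith
    · simp only [testG_right hne]
      rw [abs_le]
      constructor <;> linarith [(hfb' w).1, (hfb' w).2, (hfb' w').1, (hfb' w').2]
    · simp only [testG_right hne, hv]
      rw [abs_le]
      constructor <;> linarith [(hfb' w).1, (hfb' w).2]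
    · simp only [testG_left, hu]
      rw [abs_le]
      constructor <;> linarith [(hfb w').1, (hfb w').2]
    · simp only [testG_right hne, hu]
      rw [abs_le]
      constructor <;> linarith [(hfb' w').1, (hfb' w').2]
    · rw [hu, hv]
      norm_num

lemma testG_far_left {l l' : Layer} (hne : l ≠ l') {f f' : Lvl → ℝ} (hf : ∀ w, |f w| ≤ 1)
    (hf' : ∀ w, |f' w| ≤ 1) (y : Vtx) (hy : ¬ lay y = some l) :
    |testG l l' f f' y - 1| ≤ 3 / 2 := by
  have hfb' : ∀ w, -1 ≤ f' w ∧ f' w ≤ 1 := fun w => abs_le.mp (hf' w)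
  rcases testG_cases l l' f f' y with ⟨w, rfl⟩ | ⟨w, rfl⟩ | h
  · exact absurd (lay_pt l w) hy
  · rw [testG_right hne, abs_le]
    constructor <;> linarith [(hfb' w).1, (hfb' w).2]
  · rw [h]
    norm_num [abs_le]

lemma testG_far_right {l l' : Layer} (hne : l ≠ l') {f f' : Lvl → ℝ} (hf : ∀ w, |f w| ≤ 1)
    (y : Vtx) (hy : ¬ lay y = some l') :
    |testG l l' f f' y| ≤ 3 / 2 := by
  have hfb : ∀ w, -1 ≤ f w ∧ f w ≤ 1 := fun w => abs_le.mp (hf w)
  rcases testG_cases l l' f f' y with ⟨w, rfl⟩ | ⟨w, rfl⟩ | h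
  · rw [testG_left, abs_le]
    constructor <;> linarith [(hfb w).1, (hfb w).2]
  · exact absurd (lay_pt l' w) hy
  · rw [h]
    norm_num [abs_le]

/-- the matching lemma -/
lemma matching {J : Finset ℕ} {a : Vtx → Vtx → ℝ} {η : ℝ} (M : Model J a η) {l l' : Layer}
    (hne : l ≠ l') {x x' : Lvl} (hadj : Adj (pt l x) (pt l' x')) {f f' : Lvl → ℝ}
    (hf : ∀ w, |f w| ≤ 1) (hf' : ∀ w, |f' w| ≤ 1)
    (hm : ∀ u u', Adj (pt l u) (pt l' u') → f u = f' u') :
    ∑ w ∈ LL J, a (pt l x) (pt l w) * f w - ∑ w ∈ LL J, a (pt l' x') (pt l' w) * f' w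
      ≤ 68 * η := by
  have hout : Out J (a (pt l x)) l ≤ 11 * η :=
    hub_forcing l _ (M.total _) (fun k g hg => M.near l x k g hg)
  have hout' : Out J (a (pt l' x')) l' ≤ 11 * η :=
    hub_forcing l' _ (M.total _) (fun k g hg => M.near l' x' k g hg)
  have h0 := M.edge _ _ _ (testG_oneLip hne hf hf' hm) hadj
  have h1 := split_lower (Om J) (fun y => lay y = some l) (a (pt l x)) (testG l l' f f') (fval f)
    (M.total _) (by
      intro y hy
      cases y with
      | base => simp [lay_base] at hy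
      | hub _ _ => simp [lay_hub] at hy
      | pt l'' w =>
        rw [lay_pt, Option.some.injEq] at hy
        subst hy
        exact testG_left _ _ _ _ _)
    (fun y hy => testG_far_left hne hf hf' y hy)
  have h2 := split_upper (Om J) (fun y => lay y = some l') (a (pt l' x')) (testG l l' f f')
    (fval f')
    (by
      intro y hy
      cases y with
      | base => simp [lay_base] at hy
      | hub _ _ => simp [lay_hub] at hy
      | pt l'' w =>
        rw [lay_pt, Option.some.injEq] at hy
        subst hy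
        exact testG_right hne _ _ _)
    (fun y hy => testG_far_right hne hf y hy)
  rw [sum_layer J l (fun y => a (pt l x) y * fval f y)] at h1
  rw [sum_layer J l' (fun y => a (pt l' x') y * fval f' y)] at h2
  simp only [fval] at h1 h2
  change 1 + _ / 2 - 3 / 2 * Out J (a (pt l x)) l ≤ pair J (a (pt l x)) (testG l l' f f') at h1
  change pair J (a (pt l' x')) (testG l l' f f') ≤ _ / 2 + 3 / 2 * Out J (a (pt l' x')) l' at h2
  linarith

end Vale.Agent.Lib.P090
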