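import Vale.Agent.Lib.P090.CoreA

/-!
From the matching lemma to equivariance and concentration of the weights, then the
contradiction with the spectral gap.
-/

open Finset
open scoped Classical

namespace Vale.Agent.Lib.P090

open Vtx

/-- a sign -/
noncomputable def sg (t : ℝ) : ℝ := if 0 ≤ t then 1 else -1

lemma abs_sg (t : ℝ) : |sg t| ≤ 1 := by
  unfold sg
  split_ifs <;> simp

lemma mul_sg (t : ℝ) : t * sg t = |t| := by
  unfold sg
  split_ifs with h
  · rw [mul_one, abs_of_nonneg h]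
  · rw [abs_of_neg (not_le.mp h)]
    ring

section Chain

variable {J : Finset ℕ} {a : Vtx → Vtx → ℝ} {η : ℝ} (M : Model J a η)

include M

/-- identity matchings: a pair of layers joined by the identity of the levels -/
lemma matching_id {l l' : Layer} (hne : l ≠ l') (u : Lvl)
    (hiff : ∀ v v', Adj (pt l v) (pt l' v') ↔ v = v') :
    ∑ w ∈ LL J, |a (pt l u) (pt l w) - a (pt l' u) (pt l' w)| ≤ 68 * η := by
  set f : Lvl → ℝ := fun w => sg (a (pt l u) (pt l w) - a (pt l' u) (pt l' w)) with hf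
  have h := matching M hne (x := u) (x' := u) ((hiff u u).2 rfl) (f := f) (f' := f)
    (fun _ => abs_sg _) (fun _ => abs_sg _) (fun v v' hadj => by rw [(hiff v v').1 hadj])
  refine le_trans (le_of_eq ?_) h
  rw [← Finset.sum_sub_distrib]
  refine Finset.sum_congr rfl (fun w _ => ?_)
  rw [← sub_mul, hf]
  exact (mul_sg _).symm

lemma matching_gen (s : Fin 4) (u : Lvl) :
    ∑ w ∈ LL J, |a (pt (.gen0 s) u) (pt (.gen0 s) w)
      - a (pt (.gen1 s) (act s u)) (pt (.gen1 s) (act s w))| ≤ 68 * η := by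
  set f : Lvl → ℝ := fun w => sg (a (pt (.gen0 s) u) (pt (.gen0 s) w)
      - a (pt (.gen1 s) (act s u)) (pt (.gen1 s) (act s w))) with hf
  have h := matching M (l := .gen0 s) (l' := .gen1 s) (by simp) (x := u) (x' := act s u)
    ((adj_gen0_gen1 s u _).2 rfl) (f := f) (f' := fun w => f ((act s).symm w))
    (fun _ => abs_sg _) (fun _ => abs_sg _) (fun v v' hadj => by
      rw [(adj_gen0_gen1 s v v').1 hadj, Equiv.symm_apply_apply])
  refine le_trans (le_of_eq ?_) h
  have e : ∑ w ∈ LL J, a (pt (.gen1 s) (act s u)) (pt (.gen1 s) w) * f ((act s).symm w)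
      = ∑ w ∈ LL J, a (pt (.gen1 s) (act s u)) (pt (.gen1 s) (act s w)) * f w := by
    rw [← sum_act J s (fun w => a (pt (.gen1 s) (act s u)) (pt (.gen1 s) w) * f ((act s).symm w))]
    refine Finset.sum_congr rfl (fun w _ => ?_)
    rw [Equiv.symm_apply_apply]
  rw [e, ← Finset.sum_sub_distrib]
  refine Finset.sum_congr rfl (fun w _ => ?_)
  rw [← sub_mul, hf]
  exact (mul_sg _).symm

/-- equivariance of the weights on the star layer -/
lemma equivariance (s : Fin 4) (u : Lvl) :
    ∑ w ∈ LL J, |a (pt .star u) (pt .star w) - a (pt .star (act s u)) (pt .star (act s w))|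
      ≤ 204 * η := by
  have h1 := matching_id M (l := .star) (l' := .gen0 s) (by simp) u (adj_star_gen0 s)
  have h2 := matching_gen M s u
  have h3 := matching_id M (l := .gen1 s) (l' := .star) (by simp) (act s u) (adj_gen1_star s)
  rw [← sum_act J s (fun w => |a (pt (.gen1 s) (act s u)) (pt (.gen1 s) w)
      - a (pt .star (act s u)) (pt .star w)|)] at h3
  have h4 : ∑ w ∈ LL J, |a (pt .star u) (pt .star w) - a (pt .star (act s u)) (pt .star (act s w))|
      ≤ ∑ w ∈ LL J, (|a (pt .star u) (pt .star w) - a (pt (.gen0 s) u) (pt (.gen0 s) w)|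
        + |a (pt (.gen0 s) u) (pt (.gen0 s) w)
            - a (pt (.gen1 s) (act s u)) (pt (.gen1 s) (act s w))|
        + |a (pt (.gen1 s) (act s u)) (pt (.gen1 s) (act s w))
            - a (pt .star (act s u)) (pt .star (act s w))|) := by
    refine Finset.sum_le_sum (fun w _ => ?_)
    have e1 := abs_sub_le (a (pt .star u) (pt .star w)) (a (pt (.gen0 s) u) (pt (.gen0 s) w))
      (a (pt .star (act s u)) (pt .star (act s w)))
    have e2 := abs_sub_le (a (pt (.gen0 s) u) (pt (.gen0 s) w))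
      (a (pt (.gen1 s) (act s u)) (pt (.gen1 s) (act s w)))
      (a (pt .star (act s u)) (pt .star (act s w)))
    linarith
  rw [Finset.sum_add_distrib, Finset.sum_add_distrib] at h4
  linarith

/-- the marker layer kills the star weights outside the marked half -/
lemma marker_bound (u : Lvl) (hu : YY u) :
    ∑ w ∈ (LL J).filter (fun w => ¬ YY w), |a (pt .star u) (pt .star w)| ≤ 68 * η := by
  set p : Lvl → ℝ := fun w => a (pt .star u) (pt .star w) with hp
  set q : Lvl → ℝ := fun w => a (pt .marker u) (pt .marker w) with hq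
  set f : Lvl → ℝ := fun w => if YY w then sg (p w - q w) else sg (p w) with hf
  set f' : Lvl → ℝ := fun w => if YY w then sg (p w - q w) else - sg (q w) with hf'
  have hfb : ∀ w, |f w| ≤ 1 := by
    intro w
    simp only [hf]
    split_ifs <;> exact abs_sg _
  have hfb' : ∀ w, |f' w| ≤ 1 := by
    intro w
    simp only [hf']
    split_ifs
    · exact abs_sg _
    · rw [abs_neg]
      exact abs_sg _
  have h := matching M (l := .star) (l' := .marker) (by simp) (x := u) (x' := u)
    ((adj_star_marker u u).2 ⟨rfl, hu⟩) hfb hfb' (fun v v' hadj => by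
      obtain ⟨rfl, hv⟩ := (adj_star_marker v v').1 hadj
      simp [hf, hf', hv])
  refine le_trans ?_ h
  rw [← Finset.sum_sub_distrib, Finset.sum_filter]
  refine Finset.sum_le_sum (fun w _ => ?_)
  change (if ¬ YY w then |p w| else 0) ≤ p w * f w - q w * f' w
  by_cases hw : YY w
  · simp only [hw, not_true_eq_false, if_false, hf, hf', if_true]
    rw [← sub_mul, mul_sg]
    exact abs_nonneg _
  · simp only [hw, not_false_eq_true, if_true, if_false, hf, hf']
    rw [mul_neg, sub_neg_eq_add, mul_sg, mul_sg]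
    linarith [abs_nonneg (q w)]

/-- the total mass on the star layer -/
lemma layer_mass (u : Lvl) :
    1 - 11 * η ≤ ∑ w ∈ LL J, a (pt .star u) (pt .star w) := by
  have hout : Out J (a (pt .star u)) .star ≤ 11 * η :=
    hub_forcing .star _ (M.total _) (fun k g hg => M.near .star u k g hg)
  have h1 := M.total (pt .star u)
  rw [← Finset.sum_filter_add_sum_filter_not (Om J) (fun y => lay y = some Layer.star),
    sum_layer J .star (fun y => a (pt .star u) y)] at h1
  have h2 : ∑ y ∈ (Om J).filter (fun y => ¬ lay y = some Layer.star), a (pt .star u) y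
      ≤ Out J (a (pt .star u)) .star :=
    Finset.sum_le_sum (fun y _ => le_abs_self _)
  linarith

end Chain

/-! ### Counting -/

section Counting

variable {m : ℕ} [NeZero m]

lemma card_half_aux (hodd : Odd m) (hm : 3 ≤ m) :
    ((univ : Finset (ZMod m)).filter (fun x => 2 * x.val < m)).card
      ≤ 2 * ((univ : Finset (ZMod m)).filter (fun x => ¬ 2 * x.val < m)).card ∧
    ((univ : Finset (ZMod m)).filter (fun x => ¬ 2 * x.val < m)).card
      ≤ ((univ : Finset (ZMod m)).filter (fun x => 2 * x.val < m)).card := by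
  obtain ⟨n, hn⟩ := hodd
  have hval : ∀ x : ZMod m, x ≠ 0 → (-x).val = m - x.val := fun x hx => by
    have : NeZero x := ⟨hx⟩
    exact ZMod.val_neg_of_ne_zero x
  have hlt : ∀ x : ZMod m, x.val < m := fun x => ZMod.val_lt x
  set A := (univ : Finset (ZMod m)).filter (fun x => 2 * x.val < m) with hA
  set B := (univ : Finset (ZMod m)).filter (fun x => ¬ 2 * x.val < m) with hB
  have h1 : B.card ≤ A.card := by
    refine Finset.card_le_card_of_injOn (fun x => -x) ?_ ?_
    · intro x hx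
      have hx' : ¬ 2 * x.val < m := (Finset.mem_filter.mp hx).2
      have hx0 : x ≠ 0 := by
        rintro rfl
        simp at hx'
        omega
      refine Finset.mem_filter.mpr ⟨Finset.mem_univ _, ?_⟩
      rw [hval x hx0]
      have := hlt x
      omega
    · intro x _ y _ h
      simpa using h
  have h2 : (A.erase 0).card ≤ B.card := by
    refine Finset.card_le_card_of_injOn (fun x => -x) ?_ ?_
    · intro x hx
      have hx1 := Finset.mem_erase.mp hx
      have hx' : 2 * x.val < m := (Finset.mem_filter.mp hx1.2).2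
      refine Finset.mem_filter.mpr ⟨Finset.mem_univ _, ?_⟩
      rw [hval x hx1.1]
      have := hlt x
      omega
    · intro x _ y _ h
      simpa using h
  have h3 : (0 : ZMod m) ∈ A := by
    refine Finset.mem_filter.mpr ⟨Finset.mem_univ _, ?_⟩
    simp
    omega
  have h4 : B.Nonempty := by
    refine ⟨-1, Finset.mem_filter.mpr ⟨Finset.mem_univ _, ?_⟩⟩
    have h5 : (1 : ZMod m) ≠ 0 := by
      intro h
      have := (ZMod.natCast_eq_zero_iff 1 m).1 (by simpa using h)
      have := Nat.le_of_dvd one_pos this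
      omega
    rw [hval 1 h5]
    have h6 : (1 : ZMod m).val = 1 := by
      have : Fact (1 < m) := ⟨by omega⟩
      exact ZMod.val_one m
    rw [h6]
    omega
  have h5 : A.card = (A.erase 0).card + 1 := by
    rw [Finset.card_erase_of_mem h3]
    have := Finset.card_pos.mpr ⟨0, h3⟩
    omega
  have h6 := Finset.card_pos.mpr h4
  exact ⟨by omega, h1⟩

end Counting

/-- the marked half of a level, as a product -/
lemma filter_marked (j : ℕ) : (univ : Finset (ZZ j)).filter (fun z => YY ⟨j, z⟩)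
    = ((univ : Finset (ZMod (mm j))).filter (fun x => 2 * x.val < mm j))
      ×ˢ (univ : Finset (ZMod (mm j))) := by
  ext z
  rw [Finset.mem_filter, Finset.mem_product, Finset.mem_filter]
  simp only [Finset.mem_univ, true_and, and_true]
  rfl

/-- the unmarked part of a level, as a product -/
lemma filter_unmarked (j : ℕ) : (univ : Finset (ZZ j)).filter (fun z => ¬ YY ⟨j, z⟩)
    = ((univ : Finset (ZMod (mm j))).filter (fun x => ¬ 2 * x.val < mm j))
      ×ˢ (univ : Finset (ZMod (mm j))) := by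
  ext z
  rw [Finset.mem_filter, Finset.mem_product, Finset.mem_filter]
  simp only [Finset.mem_univ, true_and, and_true]
  rfl

/-- the marked half of a level is at least half of it -/
lemma card_marked (j : ℕ) :
    Fintype.card (ZZ j) ≤ 2 * ((univ : Finset (ZZ j)).filter (fun z => YY ⟨j, z⟩)).card := by
  obtain ⟨-, h2⟩ := card_half_aux (mm_odd j) (mm_ge j)
  have hc := Finset.card_filter_add_card_filter_not (s := (univ : Finset (ZMod (mm j))))
    (fun x => 2 * x.val < mm j)
  rw [filter_marked, Finset.card_product, Fintype.card_prod, Finset.card_univ]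
  rw [Finset.card_univ] at hc
  have h3 : Fintype.card (ZMod (mm j)) * Fintype.card (ZMod (mm j))
      ≤ (2 * ((univ : Finset (ZMod (mm j))).filter (fun x => 2 * x.val < mm j)).card)
        * Fintype.card (ZMod (mm j)) := Nat.mul_le_mul_right _ (by omega)
  linarith

/-- the marked half of a level is at most twice its complement -/
lemma card_marked' (j : ℕ) :
    ((univ : Finset (ZZ j)).filter (fun z => YY ⟨j, z⟩)).card
      ≤ 2 * ((univ : Finset (ZZ j)).filter (fun z => ¬ YY ⟨j, z⟩)).card := by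
  obtain ⟨h1, -⟩ := card_half_aux (mm_odd j) (mm_ge j)
  rw [filter_marked, filter_unmarked, Finset.card_product, Finset.card_product, ← mul_assoc]
  exact Nat.mul_le_mul_right _ h1

/-- summation over the levels in `J` and an outer level -/
lemma sum_LL_prod (J : Finset ℕ) (k : ℕ) (F : ZZ k → Lvl → ℝ) :
    ∑ u, ∑ w ∈ LL J, F u w = ∑ j ∈ J, ∑ p : ZZ k × ZZ j, F p.1 ⟨j, p.2⟩ := by
  simp only [LL, Finset.sum_sigma]
  rw [Finset.sum_comm]
  refine Finset.sum_congr rfl (fun j _ => ?_)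
  exact (Fintype.sum_prod_type (fun p : ZZ k × ZZ j => F p.1 ⟨j, p.2⟩)).symm

/-! ### Rigidity -/

/-- an elementary inequality for square roots of positive parts -/
lemma sqrt_pp_diff (x y : ℝ) : (Real.sqrt (pp x) - Real.sqrt (pp y)) ^ 2 ≤ |x - y| := by
  set s := Real.sqrt (pp x)
  set t := Real.sqrt (pp y)
  have hs : 0 ≤ s := Real.sqrt_nonneg _
  have ht : 0 ≤ t := Real.sqrt_nonneg _
  have h1 : s ^ 2 = pp x := Real.sq_sqrt (pp_nonneg x)
  have h2 : t ^ 2 = pp y := Real.sq_sqrt (pp_nonneg y)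
  have h3 : |pp x - pp y| ≤ |x - y| := by
    unfold pp
    exact abs_max_sub_max_le_abs _ _ _
  refine le_trans ?_ h3
  rw [← h1, ← h2]
  have h4 : s ^ 2 - t ^ 2 = (s - t) * (s + t) := by ring
  rw [h4, abs_mul, abs_of_nonneg (add_nonneg hs ht)]
  have h5 : |s - t| ≤ s + t := by
    rw [abs_le]
    constructor <;> linarith
  have h6 : (s - t) ^ 2 = |s - t| * |s - t| := by
    rw [abs_mul_abs_self]
    ring
  rw [h6]
  exact mul_le_mul_of_nonneg_left h5 (abs_nonneg _)

/-- pure inequality at the end of the argument -/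
lemma final_ineq (L : Finset Lvl) (P : Lvl → Prop) (ξ c : Lvl → ℝ)
    (hc : ∑ w ∈ L.filter P, c w ^ 2 ≤ 2 * ∑ w ∈ L.filter (fun w => ¬ P w), c w ^ 2) :
    ∑ w ∈ L.filter P, ξ w ^ 2
      ≤ 8 * ∑ w ∈ L, (ξ w - c w) ^ 2 + 8 * ∑ w ∈ L.filter (fun w => ¬ P w), ξ w ^ 2 := by
  have hY : ∑ w ∈ L.filter P, ξ w ^ 2
      ≤ 2 * ∑ w ∈ L.filter P, (ξ w - c w) ^ 2 + 2 * ∑ w ∈ L.filter P, c w ^ 2 := by
    rw [Finset.mul_sum, Finset.mul_sum, ← Finset.sum_add_distrib]
    refine Finset.sum_le_sum (fun w _ => ?_)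
    nlinarith [sq_nonneg (ξ w - 2 * c w)]
  have hN : ∑ w ∈ L.filter (fun w => ¬ P w), c w ^ 2
      ≤ 2 * ∑ w ∈ L.filter (fun w => ¬ P w), (ξ w - c w) ^ 2
        + 2 * ∑ w ∈ L.filter (fun w => ¬ P w), ξ w ^ 2 := by
    rw [Finset.mul_sum, Finset.mul_sum, ← Finset.sum_add_distrib]
    refine Finset.sum_le_sum (fun w _ => ?_)
    nlinarith [sq_nonneg (2 * ξ w - c w)]
  have hE : ∑ w ∈ L, (ξ w - c w) ^ 2 = ∑ w ∈ L.filter P, (ξ w - c w) ^ 2
      + ∑ w ∈ L.filter (fun w => ¬ P w), (ξ w - c w) ^ 2 :=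
    (Finset.sum_filter_add_sum_filter_not L P _).symm
  have hE1 : 0 ≤ ∑ w ∈ L.filter P, (ξ w - c w) ^ 2 :=
    Finset.sum_nonneg (fun _ _ => sq_nonneg _)
  have hE2 : 0 ≤ ∑ w ∈ L.filter (fun w => ¬ P w), (ξ w - c w) ^ 2 :=
    Finset.sum_nonneg (fun _ _ => sq_nonneg _)
  linarith

/-- the contradiction: no finite model exists with a small defect -/
theorem no_model {J : Finset ℕ} {a : Vtx → Vtx → ℝ} {η : ℝ} (M : Model J a η)
    (hη : η < 1 / 12000000) : False := by
  -- a fresh level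
  obtain ⟨k, hk⟩ : ∃ k, k ∉ J := Infinite.exists_notMem_finset J
  have hη0 : 0 ≤ η := by
    have h1 : Out J (a (pt .star ⟨k, 0⟩)) .star ≤ 11 * η :=
      hub_forcing .star _ (M.total _) (fun k' g hg => M.near .star ⟨k, 0⟩ k' g hg)
    have h2 := Out_nonneg J (a (pt .star ⟨k, 0⟩)) .star
    linarith
  -- the square roots of the positive parts
  set ξ : ZZ k → Lvl → ℝ := fun u w => Real.sqrt (pp (a (pt .star ⟨k, u⟩) (pt .star w))) with hξ
  -- the gap on each product
  have hgap : ∀ j, ∃ c : ℝ, j ∈ J → ∑ p : ZZ k × ZZ j, (ξ p.1 ⟨j, p.2⟩ - c) ^ 2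
      ≤ 900 * ∑ s : Fin 4, ∑ p : ZZ k × ZZ j,
        |a (pt .star ⟨k, p.1⟩) (pt .star ⟨j, p.2⟩)
          - a (pt .star (act s ⟨k, p.1⟩)) (pt .star (act s ⟨j, p.2⟩))| := by
    intro j
    by_cases hj : j ∈ J
    · have hkj : k ≠ j := fun e => hk (e ▸ hj)
      obtain ⟨c, hc⟩ := gap_prod (m := mm k) (m' := mm j) (mm_coprime hkj)
        (fun p => ξ p.1 ⟨j, p.2⟩)
      refine ⟨c, fun _ => le_trans hc ?_⟩
      apply mul_le_mul_of_nonneg_left _ (by norm_num)
      refine Finset.sum_le_sum (fun s _ => Finset.sum_le_sum (fun p _ => ?_))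
      rw [abs_sub_comm]
      exact sqrt_pp_diff _ _
    · exact ⟨0, fun h => absurd h hj⟩
  choose c hc using hgap
  -- the energy at `u`
  set E : ZZ k → ℝ := fun u => ∑ w ∈ LL J, (ξ u w - c w.1) ^ 2 with hE
  have hE0 : ∀ u, 0 ≤ E u := fun u => Finset.sum_nonneg (fun _ _ => sq_nonneg _)
  set N : ℝ := (Fintype.card (ZZ k) : ℝ) with hN
  have hsumE : ∑ u, E u ≤ 734400 * η * N := by
    have h1 : ∑ u, E u = ∑ j ∈ J, ∑ p : ZZ k × ZZ j, (ξ p.1 ⟨j, p.2⟩ - c j) ^ 2 :=
      sum_LL_prod J k (fun u w => (ξ u w - c w.1) ^ 2)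
    have h2 : ∑ j ∈ J, ∑ p : ZZ k × ZZ j, (ξ p.1 ⟨j, p.2⟩ - c j) ^ 2
        ≤ ∑ j ∈ J, 900 * ∑ s : Fin 4, ∑ p : ZZ k × ZZ j,
          |a (pt .star ⟨k, p.1⟩) (pt .star ⟨j, p.2⟩)
            - a (pt .star (act s ⟨k, p.1⟩)) (pt .star (act s ⟨j, p.2⟩))| :=
      Finset.sum_le_sum (fun j hj => hc j hj)
    have h3 : ∑ j ∈ J, 900 * ∑ s : Fin 4, ∑ p : ZZ k × ZZ j,
          |a (pt .star ⟨k, p.1⟩) (pt .star ⟨j, p.2⟩)
            - a (pt .star (act s ⟨k, p.1⟩)) (pt .star (act s ⟨j, p.2⟩))|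
        = 900 * ∑ s : Fin 4, ∑ u : ZZ k, ∑ w ∈ LL J,
          |a (pt .star ⟨k, u⟩) (pt .star w)
            - a (pt .star (act s ⟨k, u⟩)) (pt .star (act s w))| := by
      rw [← Finset.mul_sum]
      congr 1
      rw [Finset.sum_comm]
      refine Finset.sum_congr rfl (fun s _ => ?_)
      exact (sum_LL_prod J k (fun u w => |a (pt .star ⟨k, u⟩) (pt .star w)
            - a (pt .star (act s ⟨k, u⟩)) (pt .star (act s w))|)).symm
    have h4 : ∀ s : Fin 4, ∑ u : ZZ k, ∑ w ∈ LL J,
          |a (pt .star ⟨k, u⟩) (pt .star w)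
            - a (pt .star (act s ⟨k, u⟩)) (pt .star (act s w))| ≤ 204 * η * N := by
      intro s
      have := Finset.sum_le_sum (fun u (_ : u ∈ (univ : Finset (ZZ k))) =>
        equivariance M s ⟨k, u⟩)
      simp only [Finset.sum_const, Finset.card_univ, nsmul_eq_mul] at this
      rw [hN]
      linarith
    have h5 : ∑ s : Fin 4, ∑ u : ZZ k, ∑ w ∈ LL J,
          |a (pt .star ⟨k, u⟩) (pt .star w)
            - a (pt .star (act s ⟨k, u⟩)) (pt .star (act s w))| ≤ 4 * (204 * η * N) := by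
      have := Finset.sum_le_sum (fun s (_ : s ∈ (univ : Finset (Fin 4))) => h4 s)
      simpa using this
    rw [h1]
    refine le_trans h2 ?_
    rw [h3]
    nlinarith
  -- a good marked point
  set Yk := (univ : Finset (ZZ k)).filter (fun u => YY ⟨k, u⟩) with hYk
  have hYk0 : Yk.Nonempty := by
    refine ⟨0, Finset.mem_filter.mpr ⟨Finset.mem_univ _, ?_⟩⟩
    have := mm_ge k
    simp [YY]
    omega
  have hNY : N ≤ 2 * (Yk.card : ℝ) := by
    have := card_marked k
    rw [hN]
    exact_mod_cast this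
  obtain ⟨u, huY, hu⟩ : ∃ u ∈ Yk, E u ≤ 2 * (734400 * η) := by
    by_contra hcon
    push Not at hcon
    have h1 := Finset.sum_lt_sum_of_nonempty hYk0 hcon
    rw [Finset.sum_const, nsmul_eq_mul] at h1
    have h2 : ∑ u ∈ Yk, E u ≤ ∑ u, E u :=
      Finset.sum_le_sum_of_subset_of_nonneg (Finset.subset_univ _) (fun _ _ _ => hE0 _)
    have h3 : 734400 * η * N ≤ 734400 * η * (2 * (Yk.card : ℝ)) :=
      mul_le_mul_of_nonneg_left hNY (by positivity)
    nlinarith
  have huY' : YY ⟨k, u⟩ := (Finset.mem_filter.mp huY).2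
  -- the three facts at `u`
  have hmark := marker_bound M ⟨k, u⟩ huY'
  have hmass := layer_mass M ⟨k, u⟩
  -- the squares of the roots
  have hsq : ∀ w, ξ u w ^ 2 = pp (a (pt .star ⟨k, u⟩) (pt .star w)) := fun w =>
    Real.sq_sqrt (pp_nonneg _)
  have hc2 : ∑ w ∈ (LL J).filter YY, (c w.1) ^ 2
      ≤ 2 * ∑ w ∈ (LL J).filter (fun w => ¬ YY w), (c w.1) ^ 2 := by
    have hs : ∀ (Q : Lvl → Prop) [DecidablePred Q], ∑ w ∈ (LL J).filter Q, (c w.1) ^ 2
        = ∑ j ∈ J, ((univ : Finset (ZZ j)).filter (fun z => Q ⟨j, z⟩)).card * (c j) ^ 2 := by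
      intro Q _
      rw [Finset.sum_filter, LL, Finset.sum_sigma]
      refine Finset.sum_congr rfl (fun j _ => ?_)
      rw [← Finset.sum_filter]
      change ∑ _z ∈ (univ : Finset (ZZ j)).filter (fun z => Q ⟨j, z⟩), (c j) ^ 2 = _
      rw [Finset.sum_const, nsmul_eq_mul]
    rw [hs YY, hs (fun w => ¬ YY w), Finset.mul_sum]
    refine Finset.sum_le_sum (fun j _ => ?_)
    have h1 : (((univ : Finset (ZZ j)).filter (fun z => YY ⟨j, z⟩)).card : ℝ)
        ≤ 2 * (((univ : Finset (ZZ j)).filter (fun z => ¬ YY ⟨j, z⟩)).card : ℝ) := by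
      exact_mod_cast card_marked' j
    have h2 := sq_nonneg (c j)
    nlinarith
  have hfin := final_ineq (LL J) YY (ξ u) (fun w => c w.1) hc2
  have hN1 : ∑ w ∈ (LL J).filter (fun w => ¬ YY w), ξ u w ^ 2 ≤ 68 * η := by
    refine le_trans (Finset.sum_le_sum (fun w _ => ?_)) hmark
    rw [hsq, ← pp_add_nn]
    linarith [nn_nonneg (a (pt .star ⟨k, u⟩) (pt .star w))]
  have hN2 : 1 - 11 * η ≤ ∑ w ∈ LL J, ξ u w ^ 2 := by
    refine le_trans hmass (Finset.sum_le_sum (fun w _ => ?_))
    rw [hsq, ← pp_sub_nn (a (pt .star ⟨k, u⟩) (pt .star w))]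
    have e1 : pp (pp (a (pt .star ⟨k, u⟩) (pt .star w)) - nn (a (pt .star ⟨k, u⟩) (pt .star w)))
        = pp (a (pt .star ⟨k, u⟩) (pt .star w)) := by
      rw [pp_sub_nn]
    rw [e1]
    linarith [nn_nonneg (a (pt .star ⟨k, u⟩) (pt .star w))]
  have hsplit := Finset.sum_filter_add_sum_filter_not (LL J) YY (fun w => ξ u w ^ 2)
  have hE' : ∑ w ∈ LL J, (ξ u w - c w.1) ^ 2 ≤ 2 * (734400 * η) := hu
  nlinarith

end Vale.Agent.Lib.P090
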