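import Mathlib

/-!
Lipschitz-free spaces and approximation properties: the definitions used in the statement.
-/

open scoped NNReal

namespace Vale.Agent.Lib.P090

/-- Real Lipschitz functions on `M` vanishing at the base point `o`. -/
def lip0Submodule (M : Type*) [MetricSpace M] (o : M) : Submodule ℝ (M → ℝ) where
  carrier := {f | f o = 0 ∧ ∃ K : ℝ≥0, LipschitzWith K f}
  add_mem' := by
    rintro f g ⟨hf, Kf, hKf⟩ ⟨hg, Kg, hKg⟩
    exact ⟨by simp [hf, hg], Kf + Kg, hKf.add hKg⟩
  zero_mem' := ⟨rfl, 0, LipschitzWith.const 0⟩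
  smul_mem' := by
    rintro c f ⟨hf, Kf, hKf⟩
    refine ⟨by simp [hf], ‖c‖₊ * Kf, LipschitzWith.of_dist_le_mul fun x y => ?_⟩
    have h := hKf.dist_le_mul x y
    simp only [Pi.smul_apply, smul_eq_mul, Real.dist_eq] at h ⊢
    rw [← mul_sub, abs_mul]
    push_cast
    rw [Real.norm_eq_abs, mul_assoc]
    exact mul_le_mul_of_nonneg_left h (abs_nonneg _)

/-- The space `Lip_0(M)`, as a type of its own (so that its only topology is the norm one). -/
def Lip0 (M : Type*) [MetricSpace M] (o : M) : Type _ := lip0Submodule M o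

variable {M : Type*} [MetricSpace M] {o : M}

instance : CoeFun (Lip0 M o) (fun _ => M → ℝ) := ⟨fun f => f.1⟩

noncomputable instance (priority := 50) : AddCommGroup (Lip0 M o) :=
  Submodule.addCommGroup (lip0Submodule M o)

noncomputable instance (priority := 50) : Module ℝ (Lip0 M o) :=
  Submodule.module (lip0Submodule M o)

/-- The norm of `Lip_0(M)` is the best Lipschitz constant. -/
noncomputable instance (priority := 50) : Norm (Lip0 M o) :=
  ⟨fun f => sInf {K : ℝ | 0 ≤ K ∧ ∀ x y, |f x - f y| ≤ K * dist x y}⟩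

lemma Lip0.bddBelow (f : Lip0 M o) :
    BddBelow {K : ℝ | 0 ≤ K ∧ ∀ x y, |f x - f y| ≤ K * dist x y} :=
  ⟨0, fun _ h => h.1⟩

lemma Lip0.set_nonempty (f : Lip0 M o) :
    {K : ℝ | 0 ≤ K ∧ ∀ x y, |f x - f y| ≤ K * dist x y}.Nonempty := by
  obtain ⟨K, hK⟩ := f.2.2
  refine ⟨K, K.2, fun x y => ?_⟩
  have := hK.dist_le_mul x y
  simpa [Real.dist_eq] using this

lemma Lip0.norm_def (f : Lip0 M o) :
    ‖f‖ = sInf {K : ℝ | 0 ≤ K ∧ ∀ x y, |f x - f y| ≤ K * dist x y} := rfl

lemma Lip0.norm_nonneg' (f : Lip0 M o) : 0 ≤ ‖f‖ :=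
  le_csInf (Lip0.set_nonempty f) (fun _ h => h.1)

lemma Lip0.abs_sub_le (f : Lip0 M o) (x y : M) : |f x - f y| ≤ ‖f‖ * dist x y := by
  rcases eq_or_ne x y with rfl | hxy
  · simp
  have hd : 0 < dist x y := dist_pos.mpr hxy
  have : |f x - f y| / dist x y ≤ ‖f‖ := by
    apply le_csInf (Lip0.set_nonempty f)
    rintro K ⟨_, hK⟩
    rw [div_le_iff₀ hd]
    exact hK x y
  rwa [div_le_iff₀ hd] at this

lemma Lip0.norm_le (f : Lip0 M o) {K : ℝ} (h0 : 0 ≤ K)
    (h : ∀ x y, |f x - f y| ≤ K * dist x y) : ‖f‖ ≤ K :=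
  csInf_le (Lip0.bddBelow f) ⟨h0, h⟩

@[simp] lemma Lip0.add_apply (f g : Lip0 M o) (x : M) : (f + g) x = f x + g x := rfl
@[simp] lemma Lip0.smul_apply (c : ℝ) (f : Lip0 M o) (x : M) : (c • f) x = c * f x := rfl

lemma Lip0.ext' {f g : Lip0 M o} (h : ∀ x, f x = g x) : f = g :=
  Subtype.ext (funext h)

/-- the norm axioms -/
lemma Lip0.core : NormedSpace.Core ℝ (Lip0 M o) where
  norm_nonneg := Lip0.norm_nonneg'
  norm_smul := by
    intro c f
    have h1 : ∀ (c : ℝ) (f : Lip0 M o), ‖c • f‖ ≤ |c| * ‖f‖ := by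
      intro c f
      apply Lip0.norm_le _ (mul_nonneg (abs_nonneg _) (Lip0.norm_nonneg' f))
      intro x y
      have : (c • f) x - (c • f) y = c * (f x - f y) := by
        simp
        ring
      rw [this, abs_mul, mul_assoc]
      exact mul_le_mul_of_nonneg_left (Lip0.abs_sub_le f x y) (abs_nonneg _)
    apply le_antisymm (by simpa using h1 c f)
    rcases eq_or_ne c 0 with rfl | hc
    · simp [Lip0.norm_nonneg']
    have h2 := h1 c⁻¹ (c • f)
    rw [smul_smul, inv_mul_cancel₀ hc, one_smul, abs_inv] at h2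
    have h3 : 0 < |c| := abs_pos.mpr hc
    rw [Real.norm_eq_abs]
    rwa [le_inv_mul_iff₀ h3] at h2
  norm_triangle := by
    intro f g
    apply Lip0.norm_le _ (add_nonneg (Lip0.norm_nonneg' f) (Lip0.norm_nonneg' g))
    intro x y
    have : (f + g) x - (f + g) y = (f x - f y) + (g x - g y) := by
      simp
      ring
    rw [this, add_mul]
    exact (abs_add_le _ _).trans (add_le_add (Lip0.abs_sub_le f x y) (Lip0.abs_sub_le g x y))
  norm_eq_zero_iff := by
    intro f
    constructor
    · intro h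
      apply Lip0.ext'
      intro x
      have h1 := Lip0.abs_sub_le f x o
      rw [h, zero_mul, abs_nonpos_iff, f.2.1, sub_zero] at h1
      exact h1
    · rintro rfl
      apply le_antisymm _ (Lip0.norm_nonneg' _)
      apply Lip0.norm_le _ le_rfl
      intro x y
      have : (0 : Lip0 M o) x = 0 := rfl
      have h' : (0 : Lip0 M o) y = 0 := rfl
      simp [this, h']

noncomputable instance : NormedAddCommGroup (Lip0 M o) :=
  NormedAddCommGroup.ofCore (Lip0.core (M := M) (o := o))

noncomputable instance : NormedSpace ℝ (Lip0 M o) :=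
  NormedSpace.ofCore (Lip0.core (M := M) (o := o))

/-- The evaluation functional `δ_x` on `Lip_0(M)`. -/
noncomputable def evalAt (x : M) : StrongDual ℝ (Lip0 M o) :=
  LinearMap.mkContinuous
    { toFun := fun f => f x
      map_add' := fun _ _ => rfl
      map_smul' := fun _ _ => rfl }
    (dist x o)
    (fun f => by
      have h1 := Lip0.abs_sub_le f x o
      rw [f.2.1, sub_zero] at h1
      rw [Real.norm_eq_abs, mul_comm]
      exact h1)

/-- The Lipschitz-free space of `(M, o)`: the closed linear span of the evaluations in the dual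
of `Lip_0(M)`, with the norm of that dual. -/
noncomputable def freeSpace (M : Type*) [MetricSpace M] (o : M) :
    Submodule ℝ (StrongDual ℝ (Lip0 M o)) :=
  (Submodule.span ℝ (Set.range (evalAt (o := o)))).topologicalClosure

/-- The `lam`-bounded approximation property: on each norm-compact set, the identity can be
approximated uniformly by finite-rank operators of norm at most `lam`. -/
def HasBAP (X : Type*) [NormedAddCommGroup X] [NormedSpace ℝ X] (lam : ℝ) : Prop :=
  ∀ C : Set X, IsCompact C → ∀ ε : ℝ, 0 < ε →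
    ∃ T : X →L[ℝ] X, FiniteDimensional ℝ (LinearMap.range T.toLinearMap) ∧ ‖T‖ ≤ lam ∧
      ∀ u ∈ C, ‖T u - u‖ < ε

end Vale.Agent.Lib.P090
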