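import Vale.Agent.Lib.P090.Gap

/-!
The countable metric space: a disjoint family of layers over the levels `ZMod m × ZMod m`, where
the moduli are the Fermat numbers, wired so that the Margulis action appears on distance one.
-/

open Finset
open scoped Classical

namespace Vale.Agent.Lib.P090

/-- moduli: the Fermat numbers, which are pairwise coprime -/
def mm (j : ℕ) : ℕ := Nat.fermatNumber j

lemma mm_ge (j : ℕ) : 3 ≤ mm j := Nat.three_le_fermatNumber j

instance mm_neZero (j : ℕ) : NeZero (mm j) := ⟨by have := mm_ge j; omega⟩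

lemma mm_odd (j : ℕ) : Odd (mm j) := Nat.odd_fermatNumber j

lemma mm_coprime {j k : ℕ} (h : j ≠ k) : (mm j).Coprime (mm k) :=
  Nat.coprime_fermatNumber_fermatNumber h

/-- one level -/
abbrev ZZ (j : ℕ) : Type := ZMod (mm j) × ZMod (mm j)

/-- all levels -/
abbrev Lvl : Type := Σ j : ℕ, ZZ j

/-- the four generators acting on all levels -/
def act (s : Fin 4) : Equiv.Perm Lvl :=
  Equiv.sigmaCongrRight (fun j => gen (ZMod (mm j)) s)

lemma act_mk (s : Fin 4) (j : ℕ) (z : ZZ j) :
    act s ⟨j, z⟩ = ⟨j, gen (ZMod (mm j)) s z⟩ := rfl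

/-- the marked half of each level -/
def YY (w : Lvl) : Prop := 2 * w.2.1.val < mm w.1

/-- the layers -/
inductive Layer
  | star
  | marker
  | gen0 (s : Fin 4)
  | gen1 (s : Fin 4)
  deriving DecidableEq, Fintype

/-- the vertices -/
inductive Vtx
  | base
  | hub (l : Layer) (i : Fin 4)
  | pt (l : Layer) (w : Lvl)

open Vtx

/-- the edges, oriented -/
def Rel : Vtx → Vtx → Prop
  | .hub l _, .pt l' _ => l = l'
  | .pt .star w, .pt .marker w' => w = w' ∧ YY w
  | .pt .star w, .pt (.gen0 _) w' => w = w'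
  | .pt (.gen0 s) w, .pt (.gen1 s') w' => s = s' ∧ w' = act s w
  | .pt (.gen1 _) w, .pt .star w' => w = w'
  | _, _ => False

/-- the edges -/
def Adj (u v : Vtx) : Prop := Rel u v ∨ Rel v u

lemma Adj.symm {u v : Vtx} (h : Adj u v) : Adj v u := Or.symm h

lemma adj_hub_pt (l : Layer) (i : Fin 4) (w : Lvl) : Adj (hub l i) (pt l w) :=
  Or.inl (rfl : l = l)

lemma adj_star_gen0 (s : Fin 4) (u u' : Lvl) :
    Adj (pt .star u) (pt (.gen0 s) u') ↔ u = u' := by
  simp [Adj, Rel]

lemma adj_gen0_gen1 (s : Fin 4) (u u' : Lvl) :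
    Adj (pt (.gen0 s) u) (pt (.gen1 s) u') ↔ u' = act s u := by
  simp [Adj, Rel]

lemma adj_gen1_star (s : Fin 4) (u u' : Lvl) :
    Adj (pt (.gen1 s) u) (pt .star u') ↔ u = u' := by
  simp [Adj, Rel]

lemma adj_star_marker (u u' : Lvl) :
    Adj (pt .star u) (pt .marker u') ↔ u = u' ∧ YY u := by
  simp [Adj, Rel]

lemma not_adj_hub_hub (l l' : Layer) (i i' : Fin 4) : ¬ Adj (hub l i) (hub l' i') := by
  simp [Adj, Rel]

lemma not_adj_base (v : Vtx) : ¬ Adj v base := by
  cases v <;> simp [Adj, Rel]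

lemma not_adj_hub_pt {l l' : Layer} (h : l ≠ l') (i : Fin 4) (w : Lvl) :
    ¬ Adj (pt l' w) (hub l i) := by
  simp only [Adj, Rel]
  rintro (h' | h')
  · exact h'
  · exact h h'

/-- the distance: zero, one on the edges, two otherwise -/
noncomputable def vd (u v : Vtx) : ℝ := if u = v then 0 else if Adj u v then 1 else 2

lemma vd_self (u : Vtx) : vd u u = 0 := by simp [vd]

lemma vd_comm (u v : Vtx) : vd u v = vd v u := by
  unfold vd
  by_cases h : u = v
  · simp [h]
  · have h' : ¬ v = u := fun e => h e.symm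
    have h2 : Adj u v ↔ Adj v u := ⟨Adj.symm, Adj.symm⟩
    simp [h, h', h2]

lemma vd_ge_one {u v : Vtx} (h : u ≠ v) : 1 ≤ vd u v := by
  unfold vd
  rw [if_neg h]
  split_ifs <;> norm_num

lemma vd_le_two (u v : Vtx) : vd u v ≤ 2 := by
  unfold vd
  split_ifs <;> norm_num

lemma vd_triangle (x y z : Vtx) : vd x z ≤ vd x y + vd y z := by
  by_cases hxy : x = y
  · subst hxy
    rw [vd_self, zero_add]
  by_cases hyz : y = z
  · subst hyz
    rw [vd_self, add_zero]
  have h1 := vd_ge_one hxy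
  have h2 := vd_ge_one hyz
  have h3 := vd_le_two x z
  linarith

noncomputable instance : MetricSpace Vtx where
  dist := vd
  dist_self := vd_self
  dist_comm := vd_comm
  dist_triangle := vd_triangle
  eq_of_dist_eq_zero := by
    intro x y h
    by_contra hne
    have := vd_ge_one hne
    have h' : vd x y = 0 := h
    linarith

lemma dist_def (u v : Vtx) : dist u v = vd u v := rfl

lemma dist_eq_one {u v : Vtx} (hne : u ≠ v) (h : Adj u v) : dist u v = 1 := by
  simp [dist_def, vd, hne, h]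

lemma dist_eq_two {u v : Vtx} (hne : u ≠ v) (h : ¬ Adj u v) : dist u v = 2 := by
  simp [dist_def, vd, hne, h]

lemma dist_ge_one {u v : Vtx} (hne : u ≠ v) : 1 ≤ dist u v := vd_ge_one hne

lemma dist_le_two (u v : Vtx) : dist u v ≤ 2 := vd_le_two u v

/-- the code of a vertex, for countability -/
def code : Vtx → Option ((Layer × Fin 4) ⊕ (Layer × Lvl))
  | .base => none
  | .hub l i => some (Sum.inl (l, i))
  | .pt l w => some (Sum.inr (l, w))

lemma code_injective : Function.Injective code := by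
  intro u v h
  cases u <;> cases v <;> simp_all [code]

instance : Countable Vtx := code_injective.countable

/-- 1-Lipschitz functions -/
def IsOneLip (g : Vtx → ℝ) : Prop := ∀ p q, |g p - g q| ≤ dist p q

lemma isOneLip_of (g : Vtx → ℝ) (h2 : ∀ u v, |g u - g v| ≤ 2)
    (h1 : ∀ u v, Adj u v → |g u - g v| ≤ 1) : IsOneLip g := by
  intro p q
  by_cases hpq : p = q
  · subst hpq
    simp
  by_cases ha : Adj p q
  · rw [dist_eq_one hpq ha]
    exact h1 p q ha
  · rw [dist_eq_two hpq ha]
    exact h2 p q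

lemma isOneLip_dist (h : Vtx) : IsOneLip (fun y => dist y h) :=
  fun p q => abs_dist_sub_le p q h

lemma isOneLip_indicator (S : Vtx → Prop) [DecidablePred S] : IsOneLip (fun y => if S y then 1 else 0) := by
  intro p q
  by_cases hpq : p = q
  · subst hpq
    simp
  refine le_trans ?_ (dist_ge_one hpq)
  show |(if S p then (1 : ℝ) else 0) - (if S q then 1 else 0)| ≤ 1
  split_ifs <;> simp

/-- the levels in `J` -/
def LL (J : Finset ℕ) : Finset Lvl := J.sigma (fun _ => univ)

lemma mem_LL {J : Finset ℕ} {w : Lvl} : w ∈ LL J ↔ w.1 ∈ J := by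
  simp [LL]

lemma act_mem_LL {J : Finset ℕ} {w : Lvl} (s : Fin 4) : act s w ∈ LL J ↔ w ∈ LL J := by
  obtain ⟨j, z⟩ := w
  simp [mem_LL, act_mk]

/-- the finite part of the space -/
noncomputable def Om (J : Finset ℕ) : Finset Vtx :=
  insert Vtx.base ((univ : Finset (Layer × Fin 4)).image (fun p => Vtx.hub p.1 p.2) ∪
    ((univ : Finset Layer) ×ˢ LL J).image (fun p => Vtx.pt p.1 p.2))

lemma base_mem_Om (J : Finset ℕ) : Vtx.base ∈ Om J := by simp [Om]

lemma hub_mem_Om (J : Finset ℕ) (l : Layer) (i : Fin 4) : Vtx.hub l i ∈ Om J := by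
  simp [Om]

lemma pt_mem_Om (J : Finset ℕ) (l : Layer) (w : Lvl) : Vtx.pt l w ∈ Om J ↔ w ∈ LL J := by
  simp [Om]

/-- the layer of a vertex -/
def lay : Vtx → Option Layer
  | .pt l _ => some l
  | _ => none

lemma lay_base : lay base = none := rfl
lemma lay_hub (l : Layer) (i : Fin 4) : lay (hub l i) = none := rfl
lemma lay_pt (l : Layer) (w : Lvl) : lay (pt l w) = some l := rfl

lemma filter_lay (J : Finset ℕ) (l : Layer) :
    (Om J).filter (fun y => lay y = some l) = (LL J).image (Vtx.pt l) := by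
  ext y
  rw [mem_filter]
  cases y with
  | base => simp [lay_base]
  | hub l' i => simp [lay_hub]
  | pt l' w =>
    simp only [pt_mem_Om, lay_pt, Option.some.injEq, mem_image, Vtx.pt.injEq]
    constructor
    · rintro ⟨h, rfl⟩
      exact ⟨w, h, rfl, rfl⟩
    · rintro ⟨w', h, rfl, rfl⟩
      exact ⟨h, rfl⟩

lemma pt_injective (l : Layer) : Function.Injective (Vtx.pt l) := by
  intro w w' h
  simpa using h

lemma sum_layer (J : Finset ℕ) (l : Layer) (F : Vtx → ℝ) :
    ∑ y ∈ (Om J).filter (fun y => lay y = some l), F y = ∑ w ∈ LL J, F (Vtx.pt l w) := by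
  rw [filter_lay, Finset.sum_image (fun _ _ _ _ h => pt_injective l h)]

lemma sum_act (J : Finset ℕ) (s : Fin 4) (F : Lvl → ℝ) :
    ∑ w ∈ LL J, F (act s w) = ∑ w ∈ LL J, F w :=
  Finset.sum_equiv (act s) (fun _ => (act_mem_LL s).symm) (fun _ _ => rfl)

/-- a vertex of `Om` above any finite set -/
lemma exists_J (F0 : Finset Vtx) : ∃ J : Finset ℕ, F0 ⊆ Om J := by
  refine ⟨F0.biUnion (fun v => match v with
    | .pt _ w => {w.1}
    | _ => ∅), ?_⟩
  intro v hv
  cases v with
  | base => exact base_mem_Om _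
  | hub l i => exact hub_mem_Om _ l i
  | pt l w =>
    rw [pt_mem_Om, mem_LL, mem_biUnion]
    exact ⟨_, hv, by simp⟩

end Vale.Agent.Lib.P090
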