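import Mathlib

/-!
Spectral gap for the Margulis-Gabber-Galil action on `ZMod n × ZMod n`, proved by Fourier
analysis and a ping-pong argument on the dual group.  All constants are uniform in `n`.
-/

open Finset

namespace Vale.Agent.Lib.P090

/-- translation in the first coordinate -/
def e1 (R : Type*) [CommRing R] : Equiv.Perm (R × R) where
  toFun z := (z.1 + 1, z.2)
  invFun z := (z.1 - 1, z.2)
  left_inv z := by simp
  right_inv z := by simp

/-- translation in the second coordinate -/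
def e2 (R : Type*) [CommRing R] : Equiv.Perm (R × R) where
  toFun z := (z.1, z.2 + 1)
  invFun z := (z.1, z.2 - 1)
  left_inv z := by simp
  right_inv z := by simp

/-- first shear -/
def t1 (R : Type*) [CommRing R] : Equiv.Perm (R × R) where
  toFun z := (z.1 + 2 * z.2, z.2)
  invFun z := (z.1 - 2 * z.2, z.2)
  left_inv z := by simp
  right_inv z := by simp

/-- second shear -/
def t2 (R : Type*) [CommRing R] : Equiv.Perm (R × R) where
  toFun z := (z.1, z.2 + 2 * z.1)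
  invFun z := (z.1, z.2 - 2 * z.1)
  left_inv z := by simp
  right_inv z := by simp

/-- the four generators -/
def gen (R : Type*) [CommRing R] (s : Fin 4) : Equiv.Perm (R × R) :=
  ![e1 R, e2 R, t1 R, t2 R] s

variable {n : ℕ} [NeZero n]

/-- the Fourier transform on `ZMod n × ZMod n` -/
noncomputable def fhat (H : ZMod n × ZMod n → ℝ) (w : ZMod n × ZMod n) : ℂ :=
  ∑ z : ZMod n × ZMod n, (H z : ℂ) * ZMod.stdAddChar (-(z.1 * w.1 + z.2 * w.2))

lemma char_sum_two (b : ZMod n × ZMod n) :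
    ∑ w : ZMod n × ZMod n, (ZMod.stdAddChar (N := n)) (b.1 * w.1 + b.2 * w.2)
      = if b = 0 then ((n : ℂ) ^ 2) else 0 := by
  have h1 : ∀ c : ZMod n, ∑ x : ZMod n, (ZMod.stdAddChar (N := n)) (x * c)
      = if c = 0 then (n : ℂ) else 0 := by
    intro c
    have := AddChar.sum_mulShift (R := ZMod n) (ψ := ZMod.stdAddChar (N := n)) c
      (ZMod.isPrimitive_stdAddChar n)
    simpa [ZMod.card] using this
  rw [Fintype.sum_prod_type]
  have h2 : ∀ x y : ZMod n, (ZMod.stdAddChar (N := n)) (b.1 * x + b.2 * y)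
      = ZMod.stdAddChar (x * b.1) * ZMod.stdAddChar (y * b.2) := by
    intro x y
    rw [← AddChar.map_add_eq_mul]
    ring_nf
  simp only [h2, ← Finset.mul_sum, ← Finset.sum_mul, h1]
  by_cases h : b = 0
  · simp [h, sq]
  · rw [if_neg h]
    by_cases h' : b.1 = 0
    · have h'' : b.2 ≠ 0 := by
        intro h3
        exact h (Prod.ext h' h3)
      simp [h'']
    · simp [h']

/-- Parseval for `fhat`. -/
lemma parseval (H : ZMod n × ZMod n → ℝ) :
    ∑ w, ‖fhat H w‖ ^ 2 = (n : ℝ) ^ 2 * ∑ z, (H z) ^ 2 := by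
  have key : (((∑ w, ‖fhat H w‖ ^ 2 : ℝ)) : ℂ) = (((n : ℝ) ^ 2 * ∑ z, (H z) ^ 2 : ℝ) : ℂ) := by
    have h1 : ∀ w, (((‖fhat H w‖ ^ 2 : ℝ)) : ℂ)
        = ∑ z, ∑ z', (H z : ℂ) * (H z' : ℂ) *
            ZMod.stdAddChar ((z'.1 - z.1) * w.1 + (z'.2 - z.2) * w.2) := by
      intro w
      have h2 : ((‖fhat H w‖ ^ 2 : ℝ) : ℂ) = fhat H w * (starRingEnd ℂ) (fhat H w) := by
        rw [Complex.mul_conj, Complex.normSq_eq_norm_sq]
      rw [h2]
      unfold fhat
      rw [map_sum, Finset.sum_mul_sum]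
      refine Finset.sum_congr rfl (fun z _ => Finset.sum_congr rfl (fun z' _ => ?_))
      rw [map_mul, Complex.conj_ofReal, ← AddChar.map_neg_eq_conj]
      have h3 : (ZMod.stdAddChar (N := n)) ((z'.1 - z.1) * w.1 + (z'.2 - z.2) * w.2)
          = ZMod.stdAddChar (-(z.1 * w.1 + z.2 * w.2))
            * ZMod.stdAddChar (-(-(z'.1 * w.1 + z'.2 * w.2))) := by
        rw [← AddChar.map_add_eq_mul]
        ring_nf
      rw [h3]
      ring
    push_cast
    simp_rw [← Complex.ofReal_pow] at *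
    simp only [h1]
    rw [Finset.sum_comm]
    have h4 : ∀ z, ∑ w : ZMod n × ZMod n, ∑ z', (H z : ℂ) * (H z' : ℂ) *
            (ZMod.stdAddChar (N := n)) ((z'.1 - z.1) * w.1 + (z'.2 - z.2) * w.2)
        = (H z : ℂ) * (H z : ℂ) * (n : ℂ) ^ 2 := by
      intro z
      rw [Finset.sum_comm]
      have h5 : ∀ z', ∑ w : ZMod n × ZMod n, (H z : ℂ) * (H z' : ℂ) *
            (ZMod.stdAddChar (N := n)) ((z'.1 - z.1) * w.1 + (z'.2 - z.2) * w.2)
          = (H z : ℂ) * (H z' : ℂ) * (if z' - z = 0 then (n : ℂ) ^ 2 else 0) := by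
        intro z'
        rw [← Finset.mul_sum]
        congr 1
        have := char_sum_two (n := n) (z' - z)
        simpa using this
      simp only [h5]
      rw [Finset.sum_eq_single z]
      · simp
      · intro b _ hb
        have : b - z ≠ 0 := sub_ne_zero.mpr hb
        simp [this]
      · intro h
        exact absurd (Finset.mem_univ z) h
    simp only [h4]
    rw [Finset.mul_sum]
    refine Finset.sum_congr rfl (fun z _ => ?_)
    push_cast
    ring
  exact_mod_cast key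

lemma fhat_sub (H G : ZMod n × ZMod n → ℝ) (w : ZMod n × ZMod n) :
    fhat (fun z => H z - G z) w = fhat H w - fhat G w := by
  unfold fhat
  rw [← Finset.sum_sub_distrib]
  refine Finset.sum_congr rfl (fun z _ => ?_)
  push_cast
  ring

lemma fhat_e1 (H : ZMod n × ZMod n → ℝ) (w : ZMod n × ZMod n) :
    fhat (fun z => H (e1 (ZMod n) z)) w = ZMod.stdAddChar w.1 * fhat H w := by
  unfold fhat
  rw [Finset.mul_sum, ← Equiv.sum_comp (e1 (ZMod n)) (fun z => ZMod.stdAddChar w.1 *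
    ((H z : ℂ) * ZMod.stdAddChar (-(z.1 * w.1 + z.2 * w.2))))]
  refine Finset.sum_congr rfl (fun z _ => ?_)
  have : (ZMod.stdAddChar (N := n)) (-(z.1 * w.1 + z.2 * w.2))
      = ZMod.stdAddChar w.1 *
        ZMod.stdAddChar (-((e1 (ZMod n) z).1 * w.1 + (e1 (ZMod n) z).2 * w.2)) := by
    rw [← AddChar.map_add_eq_mul]
    congr 1
    simp only [e1, Equiv.coe_fn_mk]
    ring
  rw [this]
  ring

lemma fhat_e2 (H : ZMod n × ZMod n → ℝ) (w : ZMod n × ZMod n) :
    fhat (fun z => H (e2 (ZMod n) z)) w = ZMod.stdAddChar w.2 * fhat H w := by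
  unfold fhat
  rw [Finset.mul_sum, ← Equiv.sum_comp (e2 (ZMod n)) (fun z => ZMod.stdAddChar w.2 *
    ((H z : ℂ) * ZMod.stdAddChar (-(z.1 * w.1 + z.2 * w.2))))]
  refine Finset.sum_congr rfl (fun z _ => ?_)
  have : (ZMod.stdAddChar (N := n)) (-(z.1 * w.1 + z.2 * w.2))
      = ZMod.stdAddChar w.2 *
        ZMod.stdAddChar (-((e2 (ZMod n) z).1 * w.1 + (e2 (ZMod n) z).2 * w.2)) := by
    rw [← AddChar.map_add_eq_mul]
    congr 1
    simp only [e2, Equiv.coe_fn_mk]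
    ring
  rw [this]
  ring

lemma fhat_t1 (H : ZMod n × ZMod n → ℝ) (w : ZMod n × ZMod n) :
    fhat (fun z => H (t1 (ZMod n) z)) w = fhat H ((t2 (ZMod n)).symm w) := by
  unfold fhat
  rw [← Equiv.sum_comp (t1 (ZMod n)) (fun z => (H z : ℂ) * ZMod.stdAddChar
    (-(z.1 * ((t2 (ZMod n)).symm w).1 + z.2 * ((t2 (ZMod n)).symm w).2)))]
  refine Finset.sum_congr rfl (fun z _ => ?_)
  congr 2
  simp only [t1, t2, Equiv.coe_fn_mk, Equiv.coe_fn_symm_mk]
  ring

lemma fhat_t2 (H : ZMod n × ZMod n → ℝ) (w : ZMod n × ZMod n) :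
    fhat (fun z => H (t2 (ZMod n) z)) w = fhat H ((t1 (ZMod n)).symm w) := by
  unfold fhat
  rw [← Equiv.sum_comp (t2 (ZMod n)) (fun z => (H z : ℂ) * ZMod.stdAddChar
    (-(z.1 * ((t1 (ZMod n)).symm w).1 + z.2 * ((t1 (ZMod n)).symm w).2)))]
  refine Finset.sum_congr rfl (fun z _ => ?_)
  congr 2
  simp only [t1, t2, Equiv.coe_fn_mk, Equiv.coe_fn_symm_mk]
  ring

/-- the cyclic representative -/
def r (x : ZMod n) : ℤ := x.valMinAbs

lemma r_add_two (x y : ZMod n) (hx : 8 * (r x).natAbs < n) (hy : 8 * (r y).natAbs < n) :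
    r (x + 2 * y) = r x + 2 * r y := by
  unfold r at *
  rw [ZMod.valMinAbs_spec]
  constructor
  · simp [ZMod.coe_valMinAbs]
  · constructor <;> omega

lemma r_sub_two (x y : ZMod n) (hx : 8 * (r x).natAbs < n) (hy : 8 * (r y).natAbs < n) :
    r (x - 2 * y) = r x - 2 * r y := by
  unfold r at *
  rw [ZMod.valMinAbs_spec]
  constructor
  · simp [ZMod.coe_valMinAbs]
  · constructor <;> omega

omit [NeZero n] in
lemma r_eq_zero_iff (x : ZMod n) : r x = 0 ↔ x = 0 := by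
  unfold r
  exact ZMod.valMinAbs_eq_zero x

lemma char_far (x : ZMod n) (h : n ≤ 8 * (r x).natAbs) :
    1 / 4 ≤ ‖(ZMod.stdAddChar (N := n)) x - 1‖ ^ 2 := by
  have hn : (0 : ℝ) < n := by exact_mod_cast (NeZero.pos n)
  have hx : (ZMod.stdAddChar (N := n)) x
      = Complex.exp (Complex.I * ((2 * Real.pi * (r x : ℝ) / n : ℝ) : ℂ)) := by
    conv_lhs => rw [← ZMod.coe_valMinAbs x]
    rw [ZMod.stdAddChar_coe]
    congr 1
    unfold r
    push_cast
    ring
  rw [hx, Complex.norm_exp_I_mul_ofReal_sub_one]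
  have h2 : 2 * ((r x).natAbs : ℝ) ≤ n := by
    have := ZMod.natAbs_valMinAbs_le x
    have h3 : 2 * (r x).natAbs ≤ n := by
      unfold r
      omega
    exact_mod_cast h3
  have h8 : (n : ℝ) ≤ 8 * ((r x).natAbs : ℝ) := by exact_mod_cast h
  have habs : |(r x : ℝ)| = ((r x).natAbs : ℝ) := by
    rw [Nat.cast_natAbs]
    push_cast
    rfl
  set θ : ℝ := 2 * Real.pi * (r x : ℝ) / n / 2 with hθ
  have hθ' : |θ| = Real.pi * ((r x).natAbs : ℝ) / n := by
    rw [hθ, ← habs]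
    have : 2 * Real.pi * (r x : ℝ) / n / 2 = (Real.pi / n) * (r x : ℝ) := by
      field_simp
    rw [this, abs_mul, abs_of_pos (by positivity : (0 : ℝ) < Real.pi / n)]
    ring
  have hle : |θ| ≤ Real.pi / 2 := by
    rw [hθ']
    rw [div_le_div_iff₀ hn (by norm_num)]
    nlinarith [Real.pi_pos]
  have hs := Real.mul_abs_le_abs_sin hle
  have hs2 : 1 / 4 ≤ |Real.sin θ| := by
    refine le_trans ?_ hs
    rw [hθ']
    have : 2 / Real.pi * (Real.pi * ((r x).natAbs : ℝ) / n) = 2 * ((r x).natAbs : ℝ) / n := by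
      field_simp
    rw [this, le_div_iff₀ hn]
    linarith
  rw [Real.norm_eq_abs, abs_mul, abs_two]
  nlinarith [abs_nonneg (Real.sin θ)]

section PingPong

variable (F : ZMod n × ZMod n → ℂ) (X : ℝ)

/-- energy density -/
noncomputable def Q (w : ZMod n × ZMod n) : ℝ := ‖F w‖ ^ 2

lemma Q_nonneg (w : ZMod n × ZMod n) : 0 ≤ Q F w := by
  unfold Q
  positivity

open Classical in
/-- mass term of a predicate -/
noncomputable def mt (P : ZMod n × ZMod n → Prop) (v : ZMod n × ZMod n) : ℝ :=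
  if P v then Q F v else 0

/-- mass of a predicate -/
noncomputable def mass (P : ZMod n × ZMod n → Prop) : ℝ :=
  ∑ w, mt F P w

lemma mt_pos {P : ZMod n × ZMod n → Prop} {v : ZMod n × ZMod n} (h : P v) :
    mt F P v = Q F v := by
  unfold mt
  rw [if_pos h]

lemma mt_neg {P : ZMod n × ZMod n → Prop} {v : ZMod n × ZMod n} (h : ¬ P v) :
    mt F P v = 0 := by
  unfold mt
  rw [if_neg h]

lemma mt_nonneg (P : ZMod n × ZMod n → Prop) (v : ZMod n × ZMod n) : 0 ≤ mt F P v := by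
  by_cases h : P v
  · rw [mt_pos F h]
    exact Q_nonneg F v
  · rw [mt_neg F h]

/-- the comparison bound -/
lemma cmp_abs (U : Equiv.Perm (ZMod n × ZMod n))
    (hU : ∑ w, ‖F (U w) - F w‖ ^ 2 ≤ X) (P : ZMod n × ZMod n → Prop) [DecidablePred P] :
    |∑ w, if P w then (Q F (U w) - Q F w) else 0|
      ≤ 2 * (Real.sqrt X * Real.sqrt (∑ w, Q F w)) := by
  have hX : 0 ≤ X := le_trans (Finset.sum_nonneg (fun _ _ => by positivity)) hU
  have hE : 0 ≤ ∑ w, Q F w := Finset.sum_nonneg (fun w _ => Q_nonneg F w)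
  have h1 : ∀ w, |if P w then (Q F (U w) - Q F w) else 0|
      ≤ ‖F (U w) - F w‖ * (‖F (U w)‖ + ‖F w‖) := by
    intro w
    have h2 : |Q F (U w) - Q F w| ≤ ‖F (U w) - F w‖ * (‖F (U w)‖ + ‖F w‖) := by
      unfold Q
      have h3 : ‖F (U w)‖ ^ 2 - ‖F w‖ ^ 2 = (‖F (U w)‖ - ‖F w‖) * (‖F (U w)‖ + ‖F w‖) := by ring
      rw [h3, abs_mul, abs_of_nonneg (by positivity : 0 ≤ ‖F (U w)‖ + ‖F w‖)]
      exact mul_le_mul_of_nonneg_right (abs_norm_sub_norm_le _ _) (by positivity)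
    split_ifs
    · exact h2
    · simp only [abs_zero]
      positivity
  calc |∑ w, if P w then (Q F (U w) - Q F w) else 0|
      ≤ ∑ w, |if P w then (Q F (U w) - Q F w) else 0| := Finset.abs_sum_le_sum_abs _ _
    _ ≤ ∑ w, ‖F (U w) - F w‖ * (‖F (U w)‖ + ‖F w‖) := Finset.sum_le_sum (fun w _ => h1 w)
    _ ≤ Real.sqrt (∑ w, ‖F (U w) - F w‖ ^ 2) * Real.sqrt (∑ w, (‖F (U w)‖ + ‖F w‖) ^ 2) :=
        Real.sum_mul_le_sqrt_mul_sqrt _ _ _
    _ ≤ Real.sqrt X * Real.sqrt (4 * ∑ w, Q F w) := by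
        apply mul_le_mul (Real.sqrt_le_sqrt hU) _ (Real.sqrt_nonneg _) (Real.sqrt_nonneg _)
        apply Real.sqrt_le_sqrt
        have h4 : ∑ w, (‖F (U w)‖ + ‖F w‖) ^ 2 ≤ ∑ w, (2 * Q F (U w) + 2 * Q F w) := by
          refine Finset.sum_le_sum (fun w _ => ?_)
          unfold Q
          nlinarith [sq_nonneg (‖F (U w)‖ - ‖F w‖)]
        have h5 : ∑ w, Q F (U w) = ∑ w, Q F w := Equiv.sum_comp U (Q F)
        rw [Finset.sum_add_distrib, ← Finset.mul_sum, ← Finset.mul_sum, h5] at h4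
        linarith
    _ = 2 * (Real.sqrt X * Real.sqrt (∑ w, Q F w)) := by
        rw [Real.sqrt_mul (by norm_num : (0 : ℝ) ≤ 4)]
        have : Real.sqrt 4 = 2 := by
          rw [show (4 : ℝ) = 2 ^ 2 by norm_num]
          exact Real.sqrt_sq (by norm_num)
        rw [this]
        ring

lemma cmp_aux (U : Equiv.Perm (ZMod n × ZMod n))
    (hU : ∑ w, ‖F (U w) - F w‖ ^ 2 ≤ X) (P : ZMod n × ZMod n → Prop) :
    |(∑ v, mt F (fun w => P (U.symm w)) v) - mass F P|
      ≤ 2 * (Real.sqrt X * Real.sqrt (∑ w, Q F w)) := by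
  classical
  have h1 := cmp_abs F X U hU P
  have h2 : ∑ v, mt F (fun w => P (U.symm w)) v = ∑ w, if P w then Q F (U w) else 0 := by
    rw [← Equiv.sum_comp U]
    refine Finset.sum_congr rfl (fun w _ => ?_)
    by_cases h : P w
    · rw [if_pos h, mt_pos F (by simpa using h)]
    · rw [if_neg h, mt_neg F (by simpa using h)]
  rw [h2]
  have h3 : (∑ w, if P w then (Q F (U w) - Q F w) else 0)
      = (∑ w, if P w then Q F (U w) else 0) - mass F P := by
    unfold mass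
    rw [← Finset.sum_sub_distrib]
    refine Finset.sum_congr rfl (fun w _ => ?_)
    by_cases h : P w
    · rw [if_pos h, if_pos h, mt_pos F h]
    · rw [if_neg h, if_neg h, mt_neg F h]
      simp
  rw [h3] at h1
  exact h1

lemma cmp_lower (U : Equiv.Perm (ZMod n × ZMod n))
    (hU : ∑ w, ‖F (U w) - F w‖ ^ 2 ≤ X) (P : ZMod n × ZMod n → Prop) :
    mass F P - 2 * (Real.sqrt X * Real.sqrt (∑ w, Q F w))
      ≤ ∑ v, mt F (fun w => P (U.symm w)) v := by
  have h1 := cmp_aux F X U hU P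
  linarith [(abs_le.mp h1).1]

lemma cmp_upper (U : Equiv.Perm (ZMod n × ZMod n))
    (hU : ∑ w, ‖F (U w) - F w‖ ^ 2 ≤ X) (P : ZMod n × ZMod n → Prop) :
    (∑ v, mt F (fun w => P (U.symm w)) v)
      ≤ mass F P + 2 * (Real.sqrt X * Real.sqrt (∑ w, Q F w)) := by
  have h1 := cmp_aux F X U hU P
  linarith [(abs_le.mp h1).2]

lemma symm_bound (U : Equiv.Perm (ZMod n × ZMod n))
    (hU : ∑ w, ‖F (U w) - F w‖ ^ 2 ≤ X) : ∑ w, ‖F (U.symm w) - F w‖ ^ 2 ≤ X := by
  have : ∑ w, ‖F (U.symm w) - F w‖ ^ 2 = ∑ w, ‖F (U w) - F w‖ ^ 2 := by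
    rw [← Equiv.sum_comp U]
    refine Finset.sum_congr rfl (fun w _ => ?_)
    simp [norm_sub_rev]
  rwa [this]

/-- small region -/
def Sm (n : ℕ) [NeZero n] (w : ZMod n × ZMod n) : Prop :=
  8 * (r w.1).natAbs < n ∧ 8 * (r w.2).natAbs < n

/-- first coordinate dominates -/
def Aa (n : ℕ) [NeZero n] (w : ZMod n × ZMod n) : Prop := (r w.2).natAbs < (r w.1).natAbs

/-- second coordinate dominates -/
def Bb (n : ℕ) [NeZero n] (w : ZMod n × ZMod n) : Prop := (r w.1).natAbs < (r w.2).natAbs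

lemma t1_apply (R : Type*) [CommRing R] (v : R × R) : t1 R v = (v.1 + 2 * v.2, v.2) := rfl
lemma t2_apply (R : Type*) [CommRing R] (v : R × R) : t2 R v = (v.1, v.2 + 2 * v.1) := rfl
lemma t1_symm_apply (R : Type*) [CommRing R] (v : R × R) :
    (t1 R).symm v = (v.1 - 2 * v.2, v.2) := rfl
lemma t2_symm_apply (R : Type*) [CommRing R] (v : R × R) :
    (t2 R).symm v = (v.1, v.2 - 2 * v.1) := rfl

/-- pointwise ping-pong for the first shear -/
lemma pong_t1 (v : ZMod n × ZMod n) :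
    ((Sm n (t1 _ v) ∧ Bb n (t1 _ v)) → Aa n v) ∧
    ((Sm n ((t1 _).symm v) ∧ Bb n ((t1 _).symm v)) → Aa n v) ∧
    ¬ ((Sm n (t1 _ v) ∧ Bb n (t1 _ v)) ∧ (Sm n ((t1 _).symm v) ∧ Bb n ((t1 _).symm v))) := by
  obtain ⟨x, y⟩ := v
  have e1 : ∀ h : Sm n (t1 _ (x, y)), r x = r (x + 2 * y) - 2 * r y := by
    intro h
    have := r_sub_two (x + 2 * y) y h.1 h.2
    simpa using this
  have e2 : ∀ h : Sm n ((t1 _).symm (x, y)), r x = r (x - 2 * y) + 2 * r y := by
    intro h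
    have := r_add_two (x - 2 * y) y h.1 h.2
    simpa using this
  simp only [t1_apply, t1_symm_apply, Sm, Aa, Bb] at *
  refine ⟨fun h => ?_, fun h => ?_, fun h => ?_⟩
  · have := e1 h.1
    omega
  · have := e2 h.1
    omega
  · have h1 := e1 h.1.1
    have h2 := e2 h.2.1
    omega

/-- pointwise ping-pong for the second shear -/
lemma pong_t2 (v : ZMod n × ZMod n) :
    ((Sm n (t2 _ v) ∧ Aa n (t2 _ v)) → Bb n v) ∧
    ((Sm n ((t2 _).symm v) ∧ Aa n ((t2 _).symm v)) → Bb n v) ∧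
    ¬ ((Sm n (t2 _ v) ∧ Aa n (t2 _ v)) ∧ (Sm n ((t2 _).symm v) ∧ Aa n ((t2 _).symm v))) := by
  obtain ⟨x, y⟩ := v
  have e1 : ∀ h : Sm n (t2 _ (x, y)), r y = r (y + 2 * x) - 2 * r x := by
    intro h
    have := r_sub_two (y + 2 * x) x h.2 h.1
    simpa using this
  have e2 : ∀ h : Sm n ((t2 _).symm (x, y)), r y = r (y - 2 * x) + 2 * r x := by
    intro h
    have := r_add_two (y - 2 * x) x h.2 h.1
    simpa using this
  simp only [t2_apply, t2_symm_apply, Sm, Aa, Bb] at *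
  refine ⟨fun h => ?_, fun h => ?_, fun h => ?_⟩
  · have := e1 h.1
    omega
  · have := e2 h.1
    omega
  · have h1 := e1 h.1.1
    have h2 := e2 h.2.1
    omega

lemma diag_plus (w : ZMod n × ZMod n) (h : Sm n w) (h1 : r w.1 = r w.2) (h0 : r w.1 ≠ 0) :
    Aa n (t1 _ w) := by
  have := r_add_two w.1 w.2 h.1 h.2
  simp only [Aa, t1_apply]
  omega

lemma diag_minus (w : ZMod n × ZMod n) (h : Sm n w) (h1 : r w.1 = - r w.2) (h0 : r w.1 ≠ 0) :
    Aa n ((t1 _).symm w) := by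
  have := r_sub_two w.1 w.2 h.1 h.2
  simp only [Aa, t1_symm_apply]
  omega

/-- the abstract ping-pong inequality -/
theorem pingpong_core (hF0 : F 0 = 0)
    (h12 : ∑ w, ‖(ZMod.stdAddChar (N := n)) w.1 * F w - F w‖ ^ 2
      + ∑ w, ‖(ZMod.stdAddChar (N := n)) w.2 * F w - F w‖ ^ 2 ≤ X)
    (h3 : ∑ w, ‖F ((t1 _).symm w) - F w‖ ^ 2 ≤ X)
    (h4 : ∑ w, ‖F ((t2 _).symm w) - F w‖ ^ 2 ≤ X) :
    ∑ w, Q F w ≤ 900 * X := by
  have hX : 0 ≤ X := le_trans (Finset.sum_nonneg (fun _ _ => by positivity)) h3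
  have hE : 0 ≤ ∑ w, Q F w := Finset.sum_nonneg (fun w _ => Q_nonneg F w)
  have h3' := symm_bound F X _ h3
  have h4' := symm_bound F X _ h4
  simp only [Equiv.symm_symm] at h3' h4'
  obtain ⟨ρ, hρ⟩ : ∃ ρ, ρ = 2 * (Real.sqrt X * Real.sqrt (∑ w, Q F w)) := ⟨_, rfl⟩
  have hρ0 : 0 ≤ ρ := by
    rw [hρ]
    positivity
  -- step a
  have sa : 2 * mass F (fun w => Sm n w ∧ Bb n w) - 2 * ρ ≤ mass F (Aa n) := by
    have l1 := cmp_lower F X ((t1 (ZMod n)).symm) h3 (fun w => Sm n w ∧ Bb n w)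
    have l2 := cmp_lower F X (t1 (ZMod n)) h3' (fun w => Sm n w ∧ Bb n w)
    simp only [Equiv.symm_symm] at l1 l2
    have l3 : (∑ v, mt F (fun w => Sm n (t1 _ w) ∧ Bb n (t1 _ w)) v)
        + (∑ v, mt F (fun w => Sm n ((t1 _).symm w) ∧ Bb n ((t1 _).symm w)) v)
        ≤ mass F (Aa n) := by
      unfold mass
      rw [← Finset.sum_add_distrib]
      refine Finset.sum_le_sum (fun v _ => ?_)
      obtain ⟨p1, p2, p3⟩ := pong_t1 (n := n) v
      by_cases c1 : (Sm n (t1 _ v) ∧ Bb n (t1 _ v))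
      · have c2 : ¬ (Sm n ((t1 _).symm v) ∧ Bb n ((t1 _).symm v)) := fun c => p3 ⟨c1, c⟩
        rw [mt_pos F c1, mt_neg F c2, mt_pos F (p1 c1)]
        simp
      · by_cases c2 : (Sm n ((t1 _).symm v) ∧ Bb n ((t1 _).symm v))
        · rw [mt_neg F c1, mt_pos F c2, mt_pos F (p2 c2)]
          simp
        · rw [mt_neg F c1, mt_neg F c2]
          simpa using mt_nonneg F _ v
    rw [← hρ] at l1 l2
    linarith
  have sb : 2 * mass F (fun w => Sm n w ∧ Aa n w) - 2 * ρ ≤ mass F (Bb n) := by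
    have l1 := cmp_lower F X ((t2 (ZMod n)).symm) h4 (fun w => Sm n w ∧ Aa n w)
    have l2 := cmp_lower F X (t2 (ZMod n)) h4' (fun w => Sm n w ∧ Aa n w)
    simp only [Equiv.symm_symm] at l1 l2
    have l3 : (∑ v, mt F (fun w => Sm n (t2 _ w) ∧ Aa n (t2 _ w)) v)
        + (∑ v, mt F (fun w => Sm n ((t2 _).symm w) ∧ Aa n ((t2 _).symm w)) v)
        ≤ mass F (Bb n) := by
      unfold mass
      rw [← Finset.sum_add_distrib]
      refine Finset.sum_le_sum (fun v _ => ?_)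
      obtain ⟨p1, p2, p3⟩ := pong_t2 (n := n) v
      by_cases c1 : (Sm n (t2 _ v) ∧ Aa n (t2 _ v))
      · have c2 : ¬ (Sm n ((t2 _).symm v) ∧ Aa n ((t2 _).symm v)) := fun c => p3 ⟨c1, c⟩
        rw [mt_pos F c1, mt_neg F c2, mt_pos F (p1 c1)]
        simp
      · by_cases c2 : (Sm n ((t2 _).symm v) ∧ Aa n ((t2 _).symm v))
        · rw [mt_neg F c1, mt_pos F c2, mt_pos F (p2 c2)]
          simp
        · rw [mt_neg F c1, mt_neg F c2]
          simpa using mt_nonneg F _ v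
    rw [← hρ] at l1 l2
    linarith
  -- step c
  have sc1 : mass F (Aa n) ≤ mass F (fun w => Sm n w ∧ Aa n w) + mass F (fun w => ¬ Sm n w) := by
    unfold mass
    rw [← Finset.sum_add_distrib]
    refine Finset.sum_le_sum (fun v _ => ?_)
    by_cases c2 : Aa n v
    · rw [mt_pos F c2]
      by_cases c1 : Sm n v
      · rw [mt_pos F (⟨c1, c2⟩ : Sm n v ∧ Aa n v)]
        linarith [mt_nonneg F (fun w => ¬ Sm n w) v]
      · rw [mt_pos F (P := fun w => ¬ Sm n w) (c1)]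
        linarith [mt_nonneg F (fun w => Sm n w ∧ Aa n w) v]
    · rw [mt_neg F c2]
      linarith [mt_nonneg F (fun w => ¬ Sm n w) v, mt_nonneg F (fun w => Sm n w ∧ Aa n w) v]
  have sc2 : mass F (Bb n) ≤ mass F (fun w => Sm n w ∧ Bb n w) + mass F (fun w => ¬ Sm n w) := by
    unfold mass
    rw [← Finset.sum_add_distrib]
    refine Finset.sum_le_sum (fun v _ => ?_)
    by_cases c2 : Bb n v
    · rw [mt_pos F c2]
      by_cases c1 : Sm n v
      · rw [mt_pos F (⟨c1, c2⟩ : Sm n v ∧ Bb n v)]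
        linarith [mt_nonneg F (fun w => ¬ Sm n w) v]
      · rw [mt_pos F (P := fun w => ¬ Sm n w) (c1)]
        linarith [mt_nonneg F (fun w => Sm n w ∧ Bb n w) v]
    · rw [mt_neg F c2]
      linarith [mt_nonneg F (fun w => ¬ Sm n w) v, mt_nonneg F (fun w => Sm n w ∧ Bb n w) v]
  -- step d
  have sd1 : mass F (fun w => Sm n w ∧ r w.1 = r w.2 ∧ r w.1 ≠ 0) ≤ mass F (Aa n) + ρ := by
    have l1 := cmp_upper F X ((t1 (ZMod n)).symm) h3 (Aa n)
    simp only [Equiv.symm_symm] at l1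
    rw [← hρ] at l1
    refine le_trans ?_ l1
    unfold mass
    refine Finset.sum_le_sum (fun v _ => ?_)
    by_cases c1 : Sm n v ∧ r v.1 = r v.2 ∧ r v.1 ≠ 0
    · rw [mt_pos F c1, mt_pos F (P := fun w => Aa n (t1 _ w)) (diag_plus v c1.1 c1.2.1 c1.2.2)]
    · rw [mt_neg F c1]
      exact mt_nonneg F _ v
  have sd2 : mass F (fun w => Sm n w ∧ r w.1 = - r w.2 ∧ r w.1 ≠ 0) ≤ mass F (Aa n) + ρ := by
    have l1 := cmp_upper F X (t1 (ZMod n)) h3' (Aa n)
    rw [← hρ] at l1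
    refine le_trans ?_ l1
    unfold mass
    refine Finset.sum_le_sum (fun v _ => ?_)
    by_cases c1 : Sm n v ∧ r v.1 = - r v.2 ∧ r v.1 ≠ 0
    · rw [mt_pos F c1, mt_pos F (P := fun w => Aa n ((t1 _).symm w)) (diag_minus v c1.1 c1.2.1 c1.2.2)]
    · rw [mt_neg F c1]
      exact mt_nonneg F _ v
  -- step e
  have se : ∑ w, Q F w ≤ mass F (fun w => ¬ Sm n w) + mass F (fun w => Sm n w ∧ Aa n w)
      + mass F (fun w => Sm n w ∧ Bb n w)
      + mass F (fun w => Sm n w ∧ r w.1 = r w.2 ∧ r w.1 ≠ 0)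
      + mass F (fun w => Sm n w ∧ r w.1 = - r w.2 ∧ r w.1 ≠ 0) := by
    unfold mass
    simp only [← Finset.sum_add_distrib]
    refine Finset.sum_le_sum (fun v _ => ?_)
    have j1 := mt_nonneg F (fun w => ¬ Sm n w) v
    have j2 := mt_nonneg F (fun w => Sm n w ∧ Aa n w) v
    have j3 := mt_nonneg F (fun w => Sm n w ∧ Bb n w) v
    have j4 := mt_nonneg F (fun w => Sm n w ∧ r w.1 = r w.2 ∧ r w.1 ≠ 0) v
    have j5 := mt_nonneg F (fun w => Sm n w ∧ r w.1 = - r w.2 ∧ r w.1 ≠ 0) v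
    by_cases hv : v = 0
    · have : Q F v = 0 := by
        unfold Q
        rw [hv, hF0]
        simp
      rw [this]
      linarith
    · have nz : r v.1 ≠ 0 ∨ r v.2 ≠ 0 := by
        by_contra hh
        rw [not_or, not_not, not_not] at hh
        apply hv
        exact Prod.ext ((r_eq_zero_iff _).mp hh.1) ((r_eq_zero_iff _).mp hh.2)
      by_cases c0 : Sm n v
      · by_cases c1 : Aa n v
        · have := mt_pos F (P := fun w => Sm n w ∧ Aa n w) (⟨c0, c1⟩)
          linarith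
        · by_cases c2 : Bb n v
          · have := mt_pos F (P := fun w => Sm n w ∧ Bb n w) (⟨c0, c2⟩)
            linarith
          · simp only [Aa, Bb] at c1 c2
            by_cases c3 : r v.1 = r v.2
            · have c4 : r v.1 ≠ 0 := by omega
              have := mt_pos F (P := fun w => Sm n w ∧ r w.1 = r w.2 ∧ r w.1 ≠ 0) (⟨c0, c3, c4⟩)
              linarith
            · have c5 : r v.1 = - r v.2 := by omega
              have c4 : r v.1 ≠ 0 := by omega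
              have := mt_pos F (P := fun w => Sm n w ∧ r w.1 = - r w.2 ∧ r w.1 ≠ 0) (⟨c0, c5, c4⟩)
              linarith
      · have := mt_pos F (P := fun w => ¬ Sm n w) (c0)
        linarith
  -- step f
  have sf : mass F (fun w => ¬ Sm n w) ≤ 4 * X := by
    have : mass F (fun w => ¬ Sm n w) ≤
        4 * (∑ w, ‖(ZMod.stdAddChar (N := n)) w.1 * F w - F w‖ ^ 2
          + ∑ w, ‖(ZMod.stdAddChar (N := n)) w.2 * F w - F w‖ ^ 2) := by
      unfold mass
      rw [← Finset.sum_add_distrib, Finset.mul_sum]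
      refine Finset.sum_le_sum (fun v _ => ?_)
      have q := Q_nonneg F v
      have k : ∀ c : ℂ, ‖c * F v - F v‖ ^ 2 = ‖c - 1‖ ^ 2 * Q F v := by
        intro c
        unfold Q
        rw [← mul_pow, ← norm_mul, sub_mul, one_mul]
      rw [k, k]
      have n1 := mul_nonneg (sq_nonneg ‖(ZMod.stdAddChar (N := n)) v.1 - 1‖) q
      have n2 := mul_nonneg (sq_nonneg ‖(ZMod.stdAddChar (N := n)) v.2 - 1‖) q
      by_cases c0 : Sm n v
      · rw [mt_neg F (P := fun w => ¬ Sm n w) (not_not.mpr c0)]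
        positivity
      · rw [mt_pos F (P := fun w => ¬ Sm n w) (c0)]
        simp only [Sm, not_and_or, not_lt] at c0
        rcases c0 with c | c
        · have := char_far v.1 c
          nlinarith
        · have := char_far v.2 c
          nlinarith
    linarith
  -- conclusion
  have hb0 : 0 ≤ mass F (Bb n) := Finset.sum_nonneg (fun w _ => mt_nonneg F _ w)
  have ha0 : 0 ≤ mass F (Aa n) := Finset.sum_nonneg (fun w _ => mt_nonneg F _ w)
  have main : ∑ w, Q F w ≤ 44 * X + 14 * ρ := by linarith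
  have hu := Real.sq_sqrt hE
  have hv := Real.sq_sqrt hX
  have hu0 := Real.sqrt_nonneg (∑ w, Q F w)
  have hv0 := Real.sqrt_nonneg X
  obtain ⟨u, hu'⟩ : ∃ u, u = Real.sqrt (∑ w, Q F w) := ⟨_, rfl⟩
  obtain ⟨v, hv'⟩ : ∃ v, v = Real.sqrt X := ⟨_, rfl⟩
  rw [← hu'] at hu hu0 hρ
  rw [← hv'] at hv hv0 hρ
  have hle : u ≤ 30 * v := by
    by_contra hcon
    rw [not_le] at hcon
    rw [hρ, ← hv, ← hu] at main
    nlinarith
  rw [← hu, ← hv]
  nlinarith

end PingPong

/-- The spectral gap, uniformly in `n`. -/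
theorem gap_zmod (H : ZMod n × ZMod n → ℝ) (h0 : ∑ z, H z = 0) :
    ∑ z, (H z) ^ 2 ≤ 900 * ∑ s : Fin 4, ∑ z, (H (gen (ZMod n) s z) - H z) ^ 2 := by
  have hn : (0 : ℝ) < (n : ℝ) ^ 2 := by
    have : (0 : ℝ) < n := by exact_mod_cast (NeZero.pos n)
    positivity
  have hF0 : fhat H 0 = 0 := by
    unfold fhat
    have : ∀ z : ZMod n × ZMod n, (H z : ℂ) * (ZMod.stdAddChar (N := n))
        (-(z.1 * (0 : ZMod n × ZMod n).1 + z.2 * (0 : ZMod n × ZMod n).2)) = (H z : ℂ) := by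
      intro z
      simp
    simp only [this]
    exact_mod_cast h0
  set S0 := ∑ z, (H (e1 (ZMod n) z) - H z) ^ 2 with hS0
  set S1 := ∑ z, (H (e2 (ZMod n) z) - H z) ^ 2 with hS1
  set S2 := ∑ z, (H (t1 (ZMod n) z) - H z) ^ 2 with hS2
  set S3 := ∑ z, (H (t2 (ZMod n) z) - H z) ^ 2 with hS3
  have hS0' : 0 ≤ S0 := Finset.sum_nonneg (fun _ _ => sq_nonneg _)
  have hS1' : 0 ≤ S1 := Finset.sum_nonneg (fun _ _ => sq_nonneg _)
  have hS2' : 0 ≤ S2 := Finset.sum_nonneg (fun _ _ => sq_nonneg _)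
  have hS3' : 0 ≤ S3 := Finset.sum_nonneg (fun _ _ => sq_nonneg _)
  have hsum : ∑ s : Fin 4, ∑ z, (H (gen (ZMod n) s z) - H z) ^ 2 = S0 + S1 + S2 + S3 := by
    rw [Fin.sum_univ_four]
    rfl
  rw [hsum]
  have p0 := parseval (fun z => H (e1 (ZMod n) z) - H z)
  have p1 := parseval (fun z => H (e2 (ZMod n) z) - H z)
  have p2 := parseval (fun z => H (t1 (ZMod n) z) - H z)
  have p3 := parseval (fun z => H (t2 (ZMod n) z) - H z)
  simp only [fhat_sub, fhat_e1, fhat_e2, fhat_t1, fhat_t2] at p0 p1 p2 p3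
  have hX : 0 ≤ (n : ℝ) ^ 2 * (S0 + S1 + S2 + S3) := by positivity
  have := pingpong_core (fhat H) ((n : ℝ) ^ 2 * (S0 + S1 + S2 + S3)) hF0
    (by rw [p0, p1]; nlinarith)
    (by rw [p3]; nlinarith)
    (by rw [p2]; nlinarith)
  have hp := parseval H
  unfold Q at this
  rw [hp] at this
  have h9 : (n : ℝ) ^ 2 * ∑ z, (H z) ^ 2 ≤ (n : ℝ) ^ 2 * (900 * (S0 + S1 + S2 + S3)) := by
    linarith
  exact le_of_mul_le_mul_left h9 hn

section Prod

variable {m m' : ℕ}

/-- the Chinese remainder identification of the squares -/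
def crtSq (hc : m.Coprime m') :
    ZMod (m * m') × ZMod (m * m') ≃ (ZMod m × ZMod m) × (ZMod m' × ZMod m') :=
  (Equiv.prodCongr (ZMod.chineseRemainder hc).toEquiv (ZMod.chineseRemainder hc).toEquiv).trans
    (Equiv.prodProdProdComm _ _ _ _)

lemma crtSq_gen (hc : m.Coprime m') (s : Fin 4) (z : ZMod (m * m') × ZMod (m * m')) :
    crtSq hc (gen _ s z) = (gen _ s (crtSq hc z).1, gen _ s (crtSq hc z).2) := by
  have h2 : (ZMod.chineseRemainder hc) 2 = (2, 2) := by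
    rw [map_ofNat]
    rfl
  fin_cases s <;> simp [gen, e1, e2, t1, t2, crtSq, h2]

/-- the gap on a product of two coprime levels -/
theorem gap_prod [NeZero m] [NeZero m'] (hc : m.Coprime m')
    (H : (ZMod m × ZMod m) × (ZMod m' × ZMod m') → ℝ) :
    ∃ c : ℝ, ∑ p, (H p - c) ^ 2 ≤
      900 * ∑ s : Fin 4, ∑ p, (H (gen _ s p.1, gen _ s p.2) - H p) ^ 2 := by
  have : NeZero (m * m') := ⟨Nat.mul_ne_zero (NeZero.ne m) (NeZero.ne m')⟩
  set Φ := crtSq hc with hΦ
  set N : ℝ := ((m * m' : ℕ) : ℝ) ^ 2 with hN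
  have hN0 : N ≠ 0 := by
    have : ((m * m' : ℕ) : ℝ) ≠ 0 := by
      exact_mod_cast NeZero.ne (m * m')
    positivity
  refine ⟨(∑ z, H (Φ z)) / N, ?_⟩
  set c := (∑ z, H (Φ z)) / N with hc'
  have h0 : ∑ z, (H (Φ z) - c) = 0 := by
    rw [Finset.sum_sub_distrib, Finset.sum_const]
    have hcard : ((Finset.univ : Finset (ZMod (m * m') × ZMod (m * m'))).card : ℝ) = N := by
      rw [Finset.card_univ, Fintype.card_prod, ZMod.card, hN]
      push_cast
      ring
    rw [nsmul_eq_mul, hcard, hc']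
    field_simp
    ring
  have hg := gap_zmod (fun z => H (Φ z) - c) h0
  have e1' : ∑ p, (H p - c) ^ 2 = ∑ z, (H (Φ z) - c) ^ 2 :=
    (Equiv.sum_comp Φ (fun p => (H p - c) ^ 2)).symm
  rw [e1']
  refine le_trans hg ?_
  apply mul_le_mul_of_nonneg_left _ (by norm_num)
  refine Finset.sum_le_sum (fun s _ => le_of_eq ?_)
  rw [← Equiv.sum_comp Φ (fun p => (H (gen _ s p.1, gen _ s p.2) - H p) ^ 2)]
  refine Finset.sum_congr rfl (fun z _ => ?_)
  rw [hΦ, crtSq_gen]
  ring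

end Prod

end Vale.Agent.Lib.P090
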